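import Mathlib

namespace Vale.Agent.Results.P308.BoundedIndependenceRatio

open Finset

/-- `M` is a matching of `G`: a set of edges of `G` such that no vertex lies on two of them. -/
def IsMatching {V : Type*} (G : SimpleGraph V) (M : Finset (Sym2 V)) : Prop :=
  (∀ e ∈ M, e ∈ G.edgeSet) ∧ ∀ e ∈ M, ∀ e' ∈ M, ∀ w : V, w ∈ e → w ∈ e' → e = e'

/-- The vertex `w` lies on some edge of `M`. -/
def Covered {V : Type*} (M : Finset (Sym2 V)) (w : V) : Prop := ∃ e ∈ M, w ∈ e

/-- A perfect matching of `G`: a matching covering every vertex. -/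
def IsPerfect {V : Type*} (G : SimpleGraph V) (M : Finset (Sym2 V)) : Prop :=
  IsMatching G M ∧ ∀ w : V, Covered M w

/-- A near-perfect matching of `G`: a matching leaving exactly two vertices uncovered. -/
def IsNearPerfect {V : Type*} (G : SimpleGraph V) (M : Finset (Sym2 V)) : Prop :=
  IsMatching G M ∧ ∃ u v : V, u ≠ v ∧ ∀ w : V, ¬ Covered M w ↔ (w = u ∨ w = v)

variable {V : Type*} [DecidableEq V]

/-- `p 0, p 1, ..., p (2t+1)` is an `M`-augmenting path from `u` to `v` with `t` matching
edges: the vertices are distinct, consecutive vertices at positions `2i, 2i+1` are adjacent,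
and the edges at positions `2i+1, 2i+2` belong to `M`. -/
def IsAug (G : SimpleGraph V) (M : Finset (Sym2 V)) (u v : V) (t : ℕ) (p : ℕ → V) : Prop :=
  p 0 = u ∧ p (2 * t + 1) = v ∧
  (∀ i j, i ≤ 2 * t + 1 → j ≤ 2 * t + 1 → p i = p j → i = j) ∧
  (∀ i, i ≤ t → G.Adj (p (2 * i)) (p (2 * i + 1))) ∧
  (∀ i, i < t → s(p (2 * i + 1), p (2 * i + 2)) ∈ M)

/-- The non-matching edges of the path. -/
def pathA (t : ℕ) (p : ℕ → V) : Finset (Sym2 V) :=
  (range (t + 1)).image (fun i => s(p (2 * i), p (2 * i + 1)))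

/-- The matching edges of the path. -/
def pathB (t : ℕ) (p : ℕ → V) : Finset (Sym2 V) :=
  (range t).image (fun i => s(p (2 * i + 1), p (2 * i + 2)))

theorem augment (G : SimpleGraph V) (M : Finset (Sym2 V)) (hM : IsMatching G M) (u v : V)
    (hunc : ∀ w : V, ¬ Covered M w ↔ (w = u ∨ w = v)) (t : ℕ) (p : ℕ → V)
    (hp : IsAug G M u v t p) :
    IsPerfect G ((M \ pathB t p) ∪ pathA t p) ∧
      M = (((M \ pathB t p) ∪ pathA t p) \ pathA t p) ∪ pathB t p := by
  obtain ⟨h0, hlast, hinj, hadj, hmat⟩ := hp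
  have hu : ¬ Covered M u := (hunc u).mpr (Or.inl rfl)
  have hv : ¬ Covered M v := (hunc v).mpr (Or.inr rfl)
  have hBM : pathB t p ⊆ M := by
    intro e he
    simp only [pathB, mem_image, mem_range] at he
    obtain ⟨i, hi, rfl⟩ := he
    exact hmat i hi
  -- an edge of `M` meeting the path is a matching edge of the path
  have H : ∀ n, n ≤ 2 * t + 1 → ∀ e ∈ M, p n ∈ e → e ∈ pathB t p := by
    intro n hn e he hne
    rcases Nat.even_or_odd' n with ⟨i, rfl | rfl⟩
    · rcases Nat.eq_zero_or_pos i with rfl | hi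
      · exfalso
        apply hu
        rw [← h0]
        exact ⟨e, he, by simpa using hne⟩
      · obtain ⟨i', rfl⟩ : ∃ i', i = i' + 1 := ⟨i - 1, by omega⟩
        have h1 := hmat i' (by omega)
        have h2 : e = s(p (2 * i' + 1), p (2 * i' + 2)) :=
          hM.2 e he _ h1 (p (2 * (i' + 1))) hne (by
            have : 2 * (i' + 1) = 2 * i' + 2 := by ring
            rw [this]
            exact Sym2.mem_mk_right _ _)
        rw [h2]
        simp only [pathB, mem_image, mem_range]
        exact ⟨i', by omega, rfl⟩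
    · by_cases hi : i < t
      · have h1 := hmat i hi
        have h2 : e = s(p (2 * i + 1), p (2 * i + 2)) :=
          hM.2 e he _ h1 (p (2 * i + 1)) hne (Sym2.mem_mk_left _ _)
        rw [h2]
        simp only [pathB, mem_image, mem_range]
        exact ⟨i, hi, rfl⟩
      · exfalso
        have : i = t := by omega
        subst this
        apply hv
        rw [← hlast]
        exact ⟨e, he, hne⟩
  have hAM : ∀ e ∈ pathA t p, e ∉ M := by
    intro e he heM
    simp only [pathA, mem_image, mem_range] at he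
    obtain ⟨i, hi, rfl⟩ := he
    have h1 := H (2 * i) (by omega) _ heM (Sym2.mem_mk_left _ _)
    simp only [pathB, mem_image, mem_range] at h1
    obtain ⟨i', hi', h2⟩ := h1
    rcases Sym2.eq_iff.mp h2 with ⟨a, b⟩ | ⟨a, b⟩
    · have := hinj _ _ (by omega) (by omega) a
      omega
    · have e1 := hinj _ _ (by omega) (by omega) a
      have e2 := hinj _ _ (by omega) (by omega) b
      omega
  have hAvert : ∀ e ∈ pathA t p, ∀ w, w ∈ e → ∃ n, n ≤ 2 * t + 1 ∧ p n = w := by
    intro e he w hw
    simp only [pathA, mem_image, mem_range] at he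
    obtain ⟨i, hi, rfl⟩ := he
    rcases Sym2.mem_iff.mp hw with h | h
    · exact ⟨2 * i, by omega, h.symm⟩
    · exact ⟨2 * i + 1, by omega, h.symm⟩
  refine ⟨⟨⟨?_, ?_⟩, ?_⟩, ?_⟩
  · intro e he
    rcases mem_union.mp he with he | he
    · exact hM.1 e (mem_sdiff.mp he).1
    · simp only [pathA, mem_image, mem_range] at he
      obtain ⟨i, hi, rfl⟩ := he
      exact (SimpleGraph.mem_edgeSet G).mpr (hadj i (by omega))
  · intro e he e' he' w hw hw'
    rcases mem_union.mp he with he | he <;> rcases mem_union.mp he' with he' | he'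
    · exact hM.2 e (mem_sdiff.mp he).1 e' (mem_sdiff.mp he').1 w hw hw'
    · exfalso
      obtain ⟨n, hn, rfl⟩ := hAvert e' he' w hw'
      exact (mem_sdiff.mp he).2 (H n hn e (mem_sdiff.mp he).1 hw)
    · exfalso
      obtain ⟨n, hn, rfl⟩ := hAvert e he w hw
      exact (mem_sdiff.mp he').2 (H n hn e' (mem_sdiff.mp he').1 hw')
    · simp only [pathA, mem_image, mem_range] at he he'
      obtain ⟨i, hi, rfl⟩ := he
      obtain ⟨i', hi', rfl⟩ := he'
      have : i = i' := by
        rcases Sym2.mem_iff.mp hw with h | h <;> rcases Sym2.mem_iff.mp hw' with h' | h'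
        · have := hinj _ _ (by omega) (by omega) (h.symm.trans h')
          omega
        · have := hinj _ _ (by omega) (by omega) (h.symm.trans h')
          omega
        · have := hinj _ _ (by omega) (by omega) (h.symm.trans h')
          omega
        · have := hinj _ _ (by omega) (by omega) (h.symm.trans h')
          omega
      rw [this]
  · intro w
    by_cases hw : ∃ n, n ≤ 2 * t + 1 ∧ p n = w
    · obtain ⟨n, hn, rfl⟩ := hw
      rcases Nat.even_or_odd' n with ⟨i, rfl | rfl⟩
      · refine ⟨s(p (2 * i), p (2 * i + 1)), mem_union_right _ ?_, Sym2.mem_mk_left _ _⟩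
        simp only [pathA, mem_image, mem_range]
        exact ⟨i, by omega, rfl⟩
      · refine ⟨s(p (2 * i), p (2 * i + 1)), mem_union_right _ ?_, Sym2.mem_mk_right _ _⟩
        simp only [pathA, mem_image, mem_range]
        exact ⟨i, by omega, rfl⟩
    · have hwu : w ≠ u := by
        rintro rfl
        exact hw ⟨0, by omega, h0⟩
      have hwv : w ≠ v := by
        rintro rfl
        exact hw ⟨2 * t + 1, le_refl _, hlast⟩
      have hc : Covered M w := by
        by_contra hc
        rcases (hunc w).mp hc with h | h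
        · exact hwu h
        · exact hwv h
      obtain ⟨e, he, hwe⟩ := hc
      refine ⟨e, mem_union_left _ (mem_sdiff.mpr ⟨he, ?_⟩), hwe⟩
      intro heB
      simp only [pathB, mem_image, mem_range] at heB
      obtain ⟨i, hi, rfl⟩ := heB
      rcases Sym2.mem_iff.mp hwe with h | h
      · exact hw ⟨2 * i + 1, by omega, h.symm⟩
      · exact hw ⟨2 * i + 2, by omega, h.symm⟩
  · ext e
    simp only [mem_union, mem_sdiff]
    constructor
    · intro he
      by_cases hB : e ∈ pathB t p
      · exact Or.inr hB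
      · exact Or.inl ⟨Or.inl ⟨he, hB⟩, fun hA => hAM e hA he⟩
    · rintro (⟨⟨he, -⟩ | he, hA⟩ | he)
      · exact he
      · exact absurd he hA
      · exact hBM he


omit [DecidableEq V] in
/-- Two chords `p (2i) ~ p (2j+2)` and `p (2j+1) ~ p (2l+1)` with `i < j` and `j + 2 ≤ l` give a
shorter augmenting path `p 0, ..., p (2i), p (2j+2), p (2j+1), p (2l+1), ..., p (2t+1)`. -/
theorem shortcut (G : SimpleGraph V) (M : Finset (Sym2 V)) (u v : V) (t : ℕ) (p : ℕ → V)
    (hp : IsAug G M u v t p) (i j l : ℕ) (hij : i + 1 ≤ j) (hjt : j + 1 ≤ t) (hjl : j + 2 ≤ l)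
    (hlt : l ≤ t) (h1 : G.Adj (p (2 * i)) (p (2 * j + 2)))
    (h2 : G.Adj (p (2 * j + 1)) (p (2 * l + 1))) :
    ∃ t' q, t' < t ∧ IsAug G M u v t' q := by
  obtain ⟨h0, hlast, hinj, hadj, hmat⟩ := hp
  set ι : ℕ → ℕ := fun n => if n ≤ 2 * i then n else if n = 2 * i + 1 then 2 * j + 2
    else if n = 2 * i + 2 then 2 * j + 1 else n + 2 * l - 2 * i - 2 with hι
  set t' : ℕ := i + 1 + (t - l) with ht'
  have e0 : ι 0 = 0 := by simp [hι]
  have elast : ι (2 * t' + 1) = 2 * t + 1 := by
    simp only [hι]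
    split_ifs <;> omega
  have ebd : ∀ n, n ≤ 2 * t' + 1 → ι n ≤ 2 * t + 1 := by
    intro n hn
    simp only [hι]
    split_ifs <;> omega
  have einj : ∀ a b, a ≤ 2 * t' + 1 → b ≤ 2 * t' + 1 → ι a = ι b → a = b := by
    intro a b ha hb hab
    simp only [hι] at hab
    split_ifs at hab <;> omega
  have eadj : ∀ m, m ≤ t' → (∃ m', m' ≤ t ∧ ι (2 * m) = 2 * m' ∧ ι (2 * m + 1) = 2 * m' + 1) ∨
      (ι (2 * m) = 2 * i ∧ ι (2 * m + 1) = 2 * j + 2) ∨
      (ι (2 * m) = 2 * j + 1 ∧ ι (2 * m + 1) = 2 * l + 1) := by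
    intro m hm
    rcases lt_trichotomy m i with h | h | h
    · refine Or.inl ⟨m, by omega, ?_, ?_⟩ <;> · simp only [hι]; split_ifs <;> omega
    · refine Or.inr (Or.inl ⟨?_, ?_⟩) <;> · simp only [hι]; split_ifs <;> omega
    · by_cases h' : m = i + 1
      · refine Or.inr (Or.inr ⟨?_, ?_⟩) <;> · simp only [hι]; split_ifs <;> omega
      · refine Or.inl ⟨m + l - i - 1, by omega, ?_, ?_⟩ <;> · simp only [hι]; split_ifs <;> omega
  have emat : ∀ m, m < t' → (∃ m', m' < t ∧ ι (2 * m + 1) = 2 * m' + 1 ∧ ι (2 * m + 2) = 2 * m' + 2) ∨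
      (ι (2 * m + 1) = 2 * j + 2 ∧ ι (2 * m + 2) = 2 * j + 1) := by
    intro m hm
    rcases lt_trichotomy m i with h | h | h
    · refine Or.inl ⟨m, by omega, ?_, ?_⟩ <;> · simp only [hι]; split_ifs <;> omega
    · refine Or.inr ⟨?_, ?_⟩ <;> · simp only [hι]; split_ifs <;> omega
    · refine Or.inl ⟨m + l - i - 1, by omega, ?_, ?_⟩ <;> · simp only [hι]; split_ifs <;> omega
  refine ⟨t', fun n => p (ι n), by omega, ?_, ?_, ?_, ?_, ?_⟩
  · show p (ι 0) = u
    rw [e0, h0]
  · show p (ι (2 * t' + 1)) = v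
    rw [elast, hlast]
  · intro a b ha hb hab
    exact einj a b ha hb (hinj _ _ (ebd a ha) (ebd b hb) hab)
  · intro m hm
    show G.Adj (p (ι (2 * m))) (p (ι (2 * m + 1)))
    rcases eadj m hm with ⟨m', hm', e1, e2⟩ | ⟨e1, e2⟩ | ⟨e1, e2⟩
    · rw [e1, e2]
      exact hadj m' hm'
    · rw [e1, e2]
      exact h1
    · rw [e1, e2]
      exact h2
  · intro m hm
    show s(p (ι (2 * m + 1)), p (ι (2 * m + 2))) ∈ M
    rcases emat m hm with ⟨m', hm', e1, e2⟩ | ⟨e1, e2⟩
    · rw [e1, e2]
      exact hmat m' hm'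
    · rw [e1, e2, Sym2.eq_swap]
      exact hmat j (by omega)


/-- If the independence number is at most `k`, an augmenting path can be replaced by one with at
most `4k` matching edges. -/
theorem exists_short [Fintype V] (G : SimpleGraph V) (M : Finset (Sym2 V)) (u v : V) (k : ℕ)
    (hα : G.indepNum ≤ k) :
    ∀ t p, IsAug G M u v t p → ∃ t' q, t' ≤ 4 * k ∧ IsAug G M u v t' q := by
  intro t
  induction t using Nat.strong_induction_on with
  | _ t ih =>
    intro p hp
    by_cases ht : t ≤ 4 * k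
    · exact ⟨t, p, ht, hp⟩
    by_cases hsc : ∃ i j l, i + 1 ≤ j ∧ j + 1 ≤ t ∧ j + 2 ≤ l ∧ l ≤ t ∧
        G.Adj (p (2 * i)) (p (2 * j + 2)) ∧ G.Adj (p (2 * j + 1)) (p (2 * l + 1))
    · obtain ⟨i, j, l, a1, a2, a3, a4, a5, a6⟩ := hsc
      obtain ⟨t', q, ht', hq⟩ := shortcut G M u v t p hp i j l a1 a2 a3 a4 a5 a6
      exact ih t' ht' q hq
    exfalso
    classical
    have hsc' : ∀ i j l, i + 1 ≤ j → j + 1 ≤ t → j + 2 ≤ l → l ≤ t →
        G.Adj (p (2 * i)) (p (2 * j + 2)) → ¬ G.Adj (p (2 * j + 1)) (p (2 * l + 1)) := by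
      intro i j l a1 a2 a3 a4 a5 a6
      exact hsc ⟨i, j, l, a1, a2, a3, a4, a5, a6⟩
    obtain ⟨h0, hlast, hinj, hadj, hmat⟩ := hp
    let f : ℕ → Bool × Bool := fun j =>
      (decide (∃ i, i + 1 ≤ j ∧ G.Adj (p (2 * i)) (p (2 * j + 2))), decide (j % 2 = 0))
    have hcard : (univ : Finset (Bool × Bool)).card * k < (range t).card := by
      simp only [card_univ, Fintype.card_prod, Fintype.card_bool, card_range]
      omega
    obtain ⟨y, -, hy⟩ := Finset.exists_lt_card_fiber_of_mul_lt_card_of_maps_to (f := f)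
      (fun a _ => mem_univ _) hcard
    set S := (range t).filter (fun x => f x = y) with hS
    have hSmem : ∀ j ∈ S, j < t ∧ f j = y := by
      intro j hj
      rw [hS, mem_filter, mem_range] at hj
      exact hj
    have hpar : ∀ j1 ∈ S, ∀ j2 ∈ S, j1 < j2 → j1 + 2 ≤ j2 := by
      intro j1 h1 j2 h2 hlt
      have e1 := (hSmem j1 h1).2
      have e2 := (hSmem j2 h2).2
      have e3 : decide (j1 % 2 = 0) = decide (j2 % 2 = 0) := by
        have := congrArg Prod.snd (e1.trans e2.symm)
        simpa [f] using this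
      have e4 : (j1 % 2 = 0) ↔ (j2 % 2 = 0) := by simpa using e3
      omega
    rcases y with ⟨b1, b2⟩
    cases b1
    · -- no long even chords into the points `p (2j+2)`, `j ∈ S`
      have hne : ∀ j ∈ S, ¬ ∃ i, i + 1 ≤ j ∧ G.Adj (p (2 * i)) (p (2 * j + 2)) := by
        intro j hj
        have e1 := congrArg Prod.fst (hSmem j hj).2
        simpa [f] using e1
      have hlt : ∀ j1 ∈ S, ∀ j2 ∈ S, j1 < j2 → ¬ G.Adj (p (2 * j1 + 2)) (p (2 * j2 + 2)) := by
        intro j1 h1 j2 h2 h12 hadj'
        apply hne j2 h2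
        refine ⟨j1 + 1, by have := hpar j1 h1 j2 h2 h12; omega, ?_⟩
        have : 2 * (j1 + 1) = 2 * j1 + 2 := by ring
        rw [this]
        exact hadj'
      have hI : G.IsIndepSet (↑(S.image (fun j => p (2 * j + 2))) : Set V) := by
        intro x hx z hz hxz
        rw [mem_coe, mem_image] at hx hz
        obtain ⟨j1, hj1, rfl⟩ := hx
        obtain ⟨j2, hj2, rfl⟩ := hz
        rcases lt_trichotomy j1 j2 with h | h | h
        · exact hlt j1 hj1 j2 hj2 h
        · exact absurd (by rw [h]) hxz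
        · exact fun hadj' => hlt j2 hj2 j1 hj1 h hadj'.symm
      have h3 := hI.card_le_indepNum
      rw [card_image_of_injOn] at h3
      · omega
      · intro j1 hj1 j2 hj2 h12
        have a1 := (hSmem j1 hj1).1
        have a2 := (hSmem j2 hj2).1
        have := hinj _ _ (by omega) (by omega) h12
        omega
    · -- every `j ∈ S` has a long even chord, hence no long odd chord out of `p (2j+1)`
      have he : ∀ j ∈ S, ∃ i, i + 1 ≤ j ∧ G.Adj (p (2 * i)) (p (2 * j + 2)) := by
        intro j hj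
        have e1 := congrArg Prod.fst (hSmem j hj).2
        simpa [f] using e1
      have hlt : ∀ j1 ∈ S, ∀ j2 ∈ S, j1 < j2 → ¬ G.Adj (p (2 * j1 + 1)) (p (2 * j2 + 1)) := by
        intro j1 h1 j2 h2 h12
        obtain ⟨i, hi1, hi2⟩ := he j1 h1
        have a1 := (hSmem j1 h1).1
        have a2 := (hSmem j2 h2).1
        exact hsc' i j1 j2 hi1 (by omega) (hpar j1 h1 j2 h2 h12) (by omega) hi2
      have hI : G.IsIndepSet (↑(S.image (fun j => p (2 * j + 1))) : Set V) := by
        intro x hx z hz hxz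
        rw [mem_coe, mem_image] at hx hz
        obtain ⟨j1, hj1, rfl⟩ := hx
        obtain ⟨j2, hj2, rfl⟩ := hz
        rcases lt_trichotomy j1 j2 with h | h | h
        · exact hlt j1 hj1 j2 hj2 h
        · exact absurd (by rw [h]) hxz
        · exact fun hadj' => hlt j2 hj2 j1 hj1 h hadj'.symm
      have h3 := hI.card_le_indepNum
      rw [card_image_of_injOn] at h3
      · omega
      · intro j1 hj1 j2 hj2 h12
        have a1 := (hSmem j1 hj1).1
        have a2 := (hSmem j2 hj2).1
        have := hinj _ _ (by omega) (by omega) h12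
        omega


/-- Berge's lemma in the form needed here: if `G` has a perfect matching `Ms`, then a matching
`M` whose uncovered vertices are exactly `u ≠ v` admits an augmenting path from `u` to `v`
(follow the edges of `Ms` and `M` alternately, starting from `u`). -/
theorem exists_aug [Fintype V] (G : SimpleGraph V) (M : Finset (Sym2 V)) (hM : IsMatching G M)
    (u v : V) (hunc : ∀ w : V, ¬ Covered M w ↔ (w = u ∨ w = v))
    (Ms : Finset (Sym2 V)) (hMs : IsPerfect G Ms) :
    ∃ t p, IsAug G M u v t p := by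
  classical
  have hσex : ∀ x : V, ∃ y, s(x, y) ∈ Ms := by
    intro x
    obtain ⟨e, he, hx⟩ := hMs.2 x
    obtain ⟨y, rfl⟩ := Sym2.mem_iff_exists.mp hx
    exact ⟨y, he⟩
  choose σ hσ using hσex
  have hσadj : ∀ x, G.Adj x (σ x) := fun x => (SimpleGraph.mem_edgeSet G).mp (hMs.1.1 _ (hσ x))
  have hσne : ∀ x, σ x ≠ x := fun x => (hσadj x).ne.symm
  have hσσ : ∀ x, σ (σ x) = x := by
    intro x
    have h1 := hσ x
    have h2 := hσ (σ x)
    have h3 := hMs.1.2 _ h2 _ h1 (σ x) (Sym2.mem_mk_left _ _) (Sym2.mem_mk_right _ _)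
    rcases Sym2.eq_iff.mp h3 with ⟨a, b⟩ | ⟨a, b⟩
    · exact absurd a (hσne x)
    · exact b
  let τ : V → V := fun x => if h : ∃ y, s(x, y) ∈ M then Classical.choose h else x
  have hτ : ∀ x, Covered M x → s(x, τ x) ∈ M := by
    rintro x ⟨e, he, hx⟩
    obtain ⟨y, rfl⟩ := Sym2.mem_iff_exists.mp hx
    have h : ∃ y, s(x, y) ∈ M := ⟨y, he⟩
    simp only [τ, dif_pos h]
    exact Classical.choose_spec h
  have hτ' : ∀ x, ¬ Covered M x → τ x = x := by
    intro x hx
    have h : ¬ ∃ y, s(x, y) ∈ M := fun ⟨y, hy⟩ => hx ⟨_, hy, Sym2.mem_mk_left _ _⟩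
    simp only [τ, dif_neg h]
  have hτne : ∀ x, Covered M x → τ x ≠ x := by
    intro x hx h
    have h1 := hτ x hx
    rw [h] at h1
    exact ((SimpleGraph.mem_edgeSet G).mp (hM.1 _ h1)).ne rfl
  have hττ : ∀ x, τ (τ x) = x := by
    intro x
    by_cases hx : Covered M x
    · have h1 := hτ x hx
      have hc : Covered M (τ x) := ⟨_, h1, Sym2.mem_mk_right _ _⟩
      have h2 := hτ (τ x) hc
      have h3 := hM.2 _ h2 _ h1 (τ x) (Sym2.mem_mk_left _ _) (Sym2.mem_mk_right _ _)
      rcases Sym2.eq_iff.mp h3 with ⟨a, b⟩ | ⟨a, b⟩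
      · exact absurd a (hτne x hx)
      · exact b
    · rw [hτ' x hx, hτ' x hx]
  have hu : ¬ Covered M u := (hunc u).mpr (Or.inl rfl)
  let q : ℕ → V := fun n => Nat.rec u (fun n x => if n % 2 = 0 then σ x else τ x) n
  have q0 : q 0 = u := rfl
  have qe : ∀ n, n % 2 = 0 → q (n + 1) = σ (q n) := by
    intro n hn
    show (if n % 2 = 0 then σ (q n) else τ (q n)) = σ (q n)
    rw [if_pos hn]
  have qo : ∀ n, n % 2 = 1 → q (n + 1) = τ (q n) := by
    intro n hn
    show (if n % 2 = 0 then σ (q n) else τ (q n)) = τ (q n)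
    rw [if_neg (by omega)]
  have hrep : ∃ j, ∃ i, i < j ∧ q i = q j := by
    obtain ⟨a, b, hab, heq⟩ := Finite.exists_ne_map_eq_of_infinite q
    rcases lt_or_gt_of_ne hab with h | h
    · exact ⟨b, a, h, heq⟩
    · exact ⟨a, b, h, heq.symm⟩
  obtain ⟨j, ⟨i, hij, hqij⟩, hmin'⟩ : ∃ j, (∃ i, i < j ∧ q i = q j) ∧
      ∀ j' < j, ¬ ∃ i', i' < j' ∧ q i' = q j' := by
    have h1 := Nat.find_spec hrep
    have h2 : ∀ j' < Nat.find hrep, ¬ ∃ i', i' < j' ∧ q i' = q j' :=
      fun j' hj' => Nat.find_min hrep hj'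
    exact ⟨Nat.find hrep, h1, h2⟩
  have hmin : ∀ j' < j, ∀ i' < j', q i' ≠ q j' := fun j' hj' i' hi' h => hmin' j' hj' ⟨i', hi', h⟩
  obtain ⟨n, rfl⟩ : ∃ n, j = n + 1 := ⟨j - 1, by omega⟩
  have key : n % 2 = 1 ∧ q (n + 1) = q n := by
    rcases Nat.mod_two_eq_zero_or_one n with hn | hn
    · exfalso
      rw [qe n hn] at hqij
      rcases Nat.mod_two_eq_zero_or_one i with hi | hi
      · have h1 : q (i + 1) = q n := by
          rw [qe i hi, hqij, hσσ]
        by_cases hin : i = n
        · rw [hin] at hqij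
          exact hσne (q n) hqij.symm
        · exact hmin n (by omega) (i + 1) (by omega) h1
      · obtain ⟨i0, rfl⟩ : ∃ i0, i = i0 + 1 := ⟨i - 1, by omega⟩
        rw [qe i0 (by omega)] at hqij
        have h1 : q i0 = q n := by
          have := congrArg σ hqij
          rwa [hσσ, hσσ] at this
        exact hmin n (by omega) i0 (by omega) h1
    · refine ⟨hn, ?_⟩
      have hqn := qo n hn
      rw [hqn] at hqij
      rcases Nat.mod_two_eq_zero_or_one i with hi | hi
      · exfalso
        rcases Nat.eq_zero_or_pos i with rfl | hipos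
        · rw [q0] at hqij
          have h1 : q n = u := by
            have := congrArg τ hqij
            rw [hττ, hτ' u hu] at this
            exact this.symm
          exact hmin n (by omega) 0 (by omega) (by rw [q0, h1])
        · obtain ⟨i0, rfl⟩ : ∃ i0, i = i0 + 1 := ⟨i - 1, by omega⟩
          rw [qo i0 (by omega)] at hqij
          have h1 : q i0 = q n := by
            have := congrArg τ hqij
            rwa [hττ, hττ] at this
          exact hmin n (by omega) i0 (by omega) h1
      · by_cases hin : i = n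
        · rw [hqn, ← hqij, hin]
        · exfalso
          have h1 : q (i + 1) = q n := by
            rw [qo i hi, hqij, hττ]
          exact hmin n (by omega) (i + 1) (by omega) h1
  obtain ⟨hn, hfix⟩ := key
  have hτfix : τ (q n) = q n := by rw [← qo n hn, hfix]
  have hqn_unc : ¬ Covered M (q n) := fun hc => hτne _ hc hτfix
  have hqnv : q n = v := by
    rcases (hunc (q n)).mp hqn_unc with h | h
    · exfalso
      exact hmin n (by omega) 0 (by omega) (by rw [q0, h])
    · exact h
  refine ⟨n / 2, q, q0, ?_, ?_, ?_, ?_⟩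
  · have : 2 * (n / 2) + 1 = n := by omega
    rw [this, hqnv]
  · intro a b ha hb hab
    rcases lt_trichotomy a b with h | h | h
    · exact absurd hab (hmin b (by omega) a h)
    · exact h
    · exact absurd hab.symm (hmin a (by omega) b h)
  · intro m hm
    rw [qe (2 * m) (by omega)]
    exact hσadj _
  · intro m hm
    have h1 : q (2 * m + 2) = τ (q (2 * m + 1)) := qo (2 * m + 1) (by omega)
    have hc : Covered M (q (2 * m + 1)) := by
      by_contra hc
      rw [hτ' _ hc] at h1
      exact hmin (2 * m + 2) (by omega) (2 * m + 1) (by omega) h1.symm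
    rw [h1]
    exact hτ _ hc


/-- **Near-perfect versus perfect matchings in graphs of bounded independence number.**
If the independence number of `G` is at most `k` and `G` has a perfect matching, then the number
of near-perfect matchings of `G` is at most (4k+1) * n^(8k+2) times the number of perfect
matchings, where `n` is the number of vertices. -/
theorem result {V : Type*} [Fintype V] [DecidableEq V] (G : SimpleGraph V) (k : ℕ)
    (hα : G.indepNum ≤ k) (hpm : ∃ M : Finset (Sym2 V), IsPerfect G M) :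
    Set.ncard {M : Finset (Sym2 V) | IsNearPerfect G M}
      ≤ (4 * k + 1) * Fintype.card V ^ (8 * k + 2)
          * Set.ncard {M : Finset (Sym2 V) | IsPerfect G M} := by
  classical
  obtain ⟨Ms, hMs⟩ := hpm
  let NP : Finset (Finset (Sym2 V)) := univ.filter (fun M => IsNearPerfect G M)
  let PM : Finset (Finset (Sym2 V)) := univ.filter (fun M => IsPerfect G M)
  have hNP : Set.ncard {M : Finset (Sym2 V) | IsNearPerfect G M} = NP.card := by
    rw [← Set.ncard_coe_finset]
    congr 1
    ext M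
    simp [NP]
  have hPM : Set.ncard {M : Finset (Sym2 V) | IsPerfect G M} = PM.card := by
    rw [← Set.ncard_coe_finset]
    congr 1
    ext M
    simp [PM]
  rw [hNP, hPM]
  by_cases hV : Nonempty V
  swap
  · have : NP = ∅ := by
      apply Finset.eq_empty_of_forall_notMem
      intro M hM
      have hM' : IsNearPerfect G M := by simpa [NP] using hM
      obtain ⟨-, u, -⟩ := hM'
      exact hV ⟨u⟩
    rw [this]
    simp
  have := hV
  have key : ∀ M, IsNearPerfect G M → ∃ (M' : Finset (Sym2 V)) (t : ℕ) (p : ℕ → V),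
      IsPerfect G M' ∧ t ≤ 4 * k ∧ M = (M' \ pathA t p) ∪ pathB t p := by
    rintro M ⟨hM, u, v, huv, hunc⟩
    obtain ⟨t0, p0, h0⟩ := exists_aug G M hM u v hunc Ms hMs
    obtain ⟨t, p, ht, hp⟩ := exists_short G M u v k hα t0 p0 h0
    obtain ⟨h1, h2⟩ := augment G M hM u v hunc t p hp
    exact ⟨_, t, p, h1, ht, h2⟩
  choose! φ τ π hφ using key
  let code : Finset (Sym2 V) → Finset (Sym2 V) × Fin (4 * k + 1) × (Fin (8 * k + 2) → V) :=
    fun M => (φ M, ⟨min (τ M) (4 * k), by omega⟩, fun n => π M n)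
  have hle : NP.card
      ≤ (PM ×ˢ (univ : Finset (Fin (4 * k + 1) × (Fin (8 * k + 2) → V)))).card := by
    apply Finset.card_le_card_of_injOn code
    · intro M hM
      have hM' : IsNearPerfect G M := by simpa [NP] using hM
      rw [mem_coe, mem_product]
      exact ⟨by simpa [PM] using (hφ M hM').1, mem_univ _⟩
    · intro M1 hM1 M2 hM2 heq
      have hM1' : IsNearPerfect G M1 := by simpa [NP] using hM1
      have hM2' : IsNearPerfect G M2 := by simpa [NP] using hM2
      obtain ⟨-, ht1, e1⟩ := hφ M1 hM1'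
      obtain ⟨-, ht2, e2⟩ := hφ M2 hM2'
      simp only [code, Prod.mk.injEq, Fin.mk.injEq] at heq
      obtain ⟨hφeq, hτeq, hπeq⟩ := heq
      rw [Nat.min_eq_left ht1, Nat.min_eq_left ht2] at hτeq
      have hπ : ∀ n, n < 8 * k + 2 → π M1 n = π M2 n := by
        intro n hn
        exact congrFun hπeq ⟨n, hn⟩
      have hA : pathA (τ M1) (π M1) = pathA (τ M2) (π M2) := by
        rw [hτeq]
        unfold pathA
        apply Finset.image_congr
        intro i hi
        have hi' : i < τ M2 + 1 := by simpa using hi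
        show s(π M1 (2 * i), π M1 (2 * i + 1)) = s(π M2 (2 * i), π M2 (2 * i + 1))
        rw [hπ (2 * i) (by omega), hπ (2 * i + 1) (by omega)]
      have hB : pathB (τ M1) (π M1) = pathB (τ M2) (π M2) := by
        rw [hτeq]
        unfold pathB
        apply Finset.image_congr
        intro i hi
        have hi' : i < τ M2 := by simpa using hi
        show s(π M1 (2 * i + 1), π M1 (2 * i + 2)) = s(π M2 (2 * i + 1), π M2 (2 * i + 2))
        rw [hπ (2 * i + 1) (by omega), hπ (2 * i + 2) (by omega)]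
      rw [e1, e2, hφeq, hA, hB]
  calc NP.card
      ≤ (PM ×ˢ (univ : Finset (Fin (4 * k + 1) × (Fin (8 * k + 2) → V)))).card := hle
    _ = (4 * k + 1) * Fintype.card V ^ (8 * k + 2) * PM.card := by
        rw [card_product, card_univ, Fintype.card_prod, Fintype.card_fin, Fintype.card_fun,
          Fintype.card_fin, mul_comm]

end Vale.Agent.Results.P308.BoundedIndependenceRatio
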