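import Mathlib

namespace Vale.Agent.Results.P308.OreTypeNearPerfectRatio

open Finset

/-- `M` is a matching of `G`: a set of edges of `G` such that no vertex lies on two of them. -/
def IsMatching {V : Type*} (G : SimpleGraph V) (M : Finset (Sym2 V)) : Prop :=
  (∀ e ∈ M, e ∈ G.edgeSet) ∧ ∀ e ∈ M, ∀ e' ∈ M, ∀ w : V, w ∈ e → w ∈ e' → e = e'

/-- The vertex `w` lies on some edge of `M`. -/
def Covered {V : Type*} (M : Finset (Sym2 V)) (w : V) : Prop := ∃ e ∈ M, w ∈ e

/-- A perfect matching of `G`: a matching covering every vertex. -/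
def IsPerfect {V : Type*} (G : SimpleGraph V) (M : Finset (Sym2 V)) : Prop :=
  IsMatching G M ∧ ∀ w : V, Covered M w

/-- A near-perfect matching of `G`: a matching leaving exactly two vertices uncovered. -/
def IsNearPerfect {V : Type*} (G : SimpleGraph V) (M : Finset (Sym2 V)) : Prop :=
  IsMatching G M ∧ ∃ u v : V, u ≠ v ∧ ∀ w : V, ¬ Covered M w ↔ (w = u ∨ w = v)

variable {V : Type*} [DecidableEq V]

/-- `M` is obtained from the perfect matching `M'` by undoing an augmenting path of length
one or three between `u` and `v`. -/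
def Rel (u v : V) (M M' : Finset (Sym2 V)) : Prop :=
  (s(u, v) ∈ M' ∧ M = M'.erase s(u, v)) ∨
  (s(u, v) ∉ M' ∧ ∃ a b : V, s(u, a) ∈ M' ∧ s(v, b) ∈ M' ∧
      M = insert s(a, b) ((M'.erase s(u, a)).erase s(v, b)))

theorem Rel.symm {u v : V} {M M' : Finset (Sym2 V)} (h : Rel u v M M') : Rel v u M M' := by
  rcases h with ⟨h1, h2⟩ | ⟨h1, a, b, ha, hb, h2⟩
  · left
    rw [Sym2.eq_swap]
    exact ⟨h1, h2⟩
  · right
    refine ⟨by rwa [Sym2.eq_swap], b, a, hb, ha, ?_⟩
    rw [h2, Sym2.eq_swap, Finset.erase_right_comm]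

theorem rel_inj {G : SimpleGraph V} {u v : V} {M1 M2 M' : Finset (Sym2 V)}
    (hM' : IsMatching G M') (h1 : Rel u v M1 M') (h2 : Rel u v M2 M') : M1 = M2 := by
  rcases h1 with ⟨h1, e1⟩ | ⟨h1, a1, b1, ha1, hb1, e1⟩ <;>
    rcases h2 with ⟨h2, e2⟩ | ⟨h2, a2, b2, ha2, hb2, e2⟩
  · rw [e1, e2]
  · exact absurd h1 h2
  · exact absurd h2 h1
  · have ha : a1 = a2 := Sym2.congr_right.mp
      (hM'.2 _ ha1 _ ha2 u (Sym2.mem_mk_left u a1) (Sym2.mem_mk_left u a2))
    have hb : b1 = b2 := Sym2.congr_right.mp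
      (hM'.2 _ hb1 _ hb2 v (Sym2.mem_mk_left v b1) (Sym2.mem_mk_left v b2))
    rw [e1, e2, ha, hb]

theorem exists_partner_edge [Fintype V] (G : SimpleGraph V) [DecidableRel G.Adj] (M : Finset (Sym2 V))
    (hM : IsMatching G M) (u v : V) (huv : u ≠ v)
    (hunc : ∀ w : V, ¬ Covered M w ↔ (w = u ∨ w = v)) (hnadj : ¬ G.Adj u v)
    (hdeg : Fintype.card V ≤ G.degree u + G.degree v + 1) :
    ∃ a b : V, s(a, b) ∈ M ∧ G.Adj u a ∧ G.Adj v b := by
  classical
  let p : V → V := fun x => if h : ∃ y, s(x, y) ∈ M then Classical.choose h else x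
  have hp : ∀ x, Covered M x → s(x, p x) ∈ M := by
    rintro x ⟨e, he, hx⟩
    obtain ⟨y, rfl⟩ := Sym2.mem_iff_exists.mp hx
    have h : ∃ y, s(x, y) ∈ M := ⟨y, he⟩
    simp only [p, dif_pos h]
    exact Classical.choose_spec h
  have hcov : ∀ w, w ≠ u → w ≠ v → Covered M w := by
    intro w h1 h2
    by_contra hc
    rcases (hunc w).mp hc with h | h
    · exact h1 h
    · exact h2 h
  have hu : ¬ Covered M u := (hunc u).mpr (Or.inl rfl)
  have hv : ¬ Covered M v := (hunc v).mpr (Or.inr rfl)
  have hNv : ∀ b, G.Adj v b → Covered M b := by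
    intro b hb
    apply hcov
    · rintro rfl
      exact hnadj hb.symm
    · rintro rfl
      exact G.irrefl hb
  have hA : G.neighborFinset u ⊆ univ \ {u, v} := by
    intro a ha
    rw [SimpleGraph.mem_neighborFinset] at ha
    simp only [mem_sdiff, mem_univ, true_and, mem_insert, mem_singleton, not_or]
    exact ⟨fun h => G.irrefl (h ▸ ha), fun h => hnadj (h ▸ ha)⟩
  have hB : (G.neighborFinset v).image p ⊆ univ \ {u, v} := by
    intro c hc
    rw [mem_image] at hc
    obtain ⟨b, hb, rfl⟩ := hc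
    rw [SimpleGraph.mem_neighborFinset] at hb
    have h1 := hp b (hNv b hb)
    simp only [mem_sdiff, mem_univ, true_and, mem_insert, mem_singleton, not_or]
    refine ⟨fun h => hu ⟨_, h1, ?_⟩, fun h => hv ⟨_, h1, ?_⟩⟩
    · rw [← h]
      exact Sym2.mem_mk_right _ _
    · rw [← h]
      exact Sym2.mem_mk_right _ _
  have hBcard : ((G.neighborFinset v).image p).card = G.degree v := by
    rw [Finset.card_image_of_injOn, SimpleGraph.card_neighborFinset_eq_degree]
    intro b hb b' hb' hbb'
    rw [mem_coe, SimpleGraph.mem_neighborFinset] at hb hb'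
    have h1 := hp b (hNv b hb)
    have h2 := hp b' (hNv b' hb')
    rw [hbb'] at h1
    exact Sym2.congr_left.mp
      (hM.2 _ h1 _ h2 (p b') (Sym2.mem_mk_right _ _) (Sym2.mem_mk_right _ _))
  have h2le : 2 ≤ Fintype.card V := by
    rw [← Finset.card_pair huv]
    exact Finset.card_le_univ _
  have hcard : (univ \ {u, v} : Finset V).card
      < (G.neighborFinset u).card + ((G.neighborFinset v).image p).card := by
    rw [hBcard, SimpleGraph.card_neighborFinset_eq_degree,
      Finset.card_sdiff_of_subset (subset_univ _), Finset.card_univ, Finset.card_pair huv]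
    omega
  obtain ⟨a, ha⟩ := Finset.inter_nonempty_of_card_lt_card_add_card hA hB hcard
  rw [mem_inter] at ha
  obtain ⟨haA, haB⟩ := ha
  rw [mem_image] at haB
  obtain ⟨b, hb, rfl⟩ := haB
  rw [SimpleGraph.mem_neighborFinset] at hb haA
  refine ⟨p b, b, ?_, haA, hb⟩
  rw [Sym2.eq_swap]
  exact hp b (hNv b hb)


theorem augment [Fintype V] (G : SimpleGraph V) [DecidableRel G.Adj]
    (hOre : ∀ u v : V, u ≠ v → ¬ G.Adj u v → Fintype.card V ≤ G.degree u + G.degree v + 1)
    (M : Finset (Sym2 V)) (hM : IsMatching G M) (u v : V) (huv : u ≠ v)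
    (hunc : ∀ w : V, ¬ Covered M w ↔ (w = u ∨ w = v)) :
    ∃ M', IsPerfect G M' ∧ Rel u v M M' := by
  have hu : ¬ Covered M u := (hunc u).mpr (Or.inl rfl)
  have hv : ¬ Covered M v := (hunc v).mpr (Or.inr rfl)
  have hcov : ∀ w, w ≠ u → w ≠ v → Covered M w := by
    intro w h1 h2
    by_contra hc
    rcases (hunc w).mp hc with h | h
    · exact h1 h
    · exact h2 h
  have huvM : s(u, v) ∉ M := fun h => hu ⟨_, h, Sym2.mem_mk_left _ _⟩
  by_cases hadj : G.Adj u v
  · refine ⟨insert s(u, v) M, ⟨⟨?_, ?_⟩, ?_⟩,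
      Or.inl ⟨mem_insert_self _ _, (erase_insert huvM).symm⟩⟩
    · intro e he
      rcases mem_insert.mp he with rfl | he
      · exact (SimpleGraph.mem_edgeSet G).mpr hadj
      · exact hM.1 e he
    · intro e he e' he' w hw hw'
      rcases mem_insert.mp he with rfl | he <;> rcases mem_insert.mp he' with rfl | he'
      · rfl
      · exfalso
        rcases Sym2.mem_iff.mp hw with h | h
        · exact hu ⟨e', he', h ▸ hw'⟩
        · exact hv ⟨e', he', h ▸ hw'⟩
      · exfalso
        rcases Sym2.mem_iff.mp hw' with h | h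
        · exact hu ⟨e, he, h ▸ hw⟩
        · exact hv ⟨e, he, h ▸ hw⟩
      · exact hM.2 e he e' he' w hw hw'
    · intro w
      by_cases h1 : w = u
      · exact ⟨s(u, v), mem_insert_self _ _, by rw [h1]; exact Sym2.mem_mk_left _ _⟩
      by_cases h2 : w = v
      · exact ⟨s(u, v), mem_insert_self _ _, by rw [h2]; exact Sym2.mem_mk_right _ _⟩
      obtain ⟨e, he, hw⟩ := hcov w h1 h2
      exact ⟨e, mem_insert_of_mem he, hw⟩
  · obtain ⟨a, b, hab, hua, hvb⟩ :=
      exists_partner_edge G M hM u v huv hunc hadj (hOre u v huv hadj)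
    have hab' : G.Adj a b := (SimpleGraph.mem_edgeSet G).mp (hM.1 _ hab)
    have ha_cov : Covered M a := ⟨_, hab, Sym2.mem_mk_left _ _⟩
    have hb_cov : Covered M b := ⟨_, hab, Sym2.mem_mk_right _ _⟩
    have hau : a ≠ u := fun h => hu (h ▸ ha_cov)
    have hav : a ≠ v := fun h => hv (h ▸ ha_cov)
    have hbu : b ≠ u := fun h => hu (h ▸ hb_cov)
    have hbv : b ≠ v := fun h => hv (h ▸ hb_cov)
    have hne : a ≠ b := hab'.ne
    have hother : ∀ e ∈ M.erase s(a, b), ∀ w, w ∈ e → w ≠ u ∧ w ≠ v ∧ w ≠ a ∧ w ≠ b := by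
      intro e he w hw
      rw [mem_erase] at he
      refine ⟨fun h => hu ⟨e, he.2, h ▸ hw⟩, fun h => hv ⟨e, he.2, h ▸ hw⟩,
        fun h => he.1 ?_, fun h => he.1 ?_⟩
      · exact hM.2 e he.2 _ hab w hw (h ▸ Sym2.mem_mk_left _ _)
      · exact hM.2 e he.2 _ hab w hw (h ▸ Sym2.mem_mk_right _ _)
    have hua_notin : s(u, a) ∉ insert s(v, b) (M.erase s(a, b)) := by
      intro h
      rcases mem_insert.mp h with h | h
      · rcases Sym2.eq_iff.mp h with ⟨h1, -⟩ | ⟨h1, -⟩
        · exact huv h1
        · exact hbu h1.symm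
      · exact hu ⟨_, (mem_erase.mp h).2, Sym2.mem_mk_left _ _⟩
    have hvb_notin : s(v, b) ∉ M.erase s(a, b) := by
      intro h
      exact hv ⟨_, (mem_erase.mp h).2, Sym2.mem_mk_left _ _⟩
    refine ⟨insert s(u, a) (insert s(v, b) (M.erase s(a, b))), ⟨⟨?_, ?_⟩, ?_⟩,
      Or.inr ⟨?_, a, b, mem_insert_self _ _, mem_insert_of_mem (mem_insert_self _ _), ?_⟩⟩
    · intro e he
      rcases mem_insert.mp he with rfl | he
      · exact (SimpleGraph.mem_edgeSet G).mpr hua
      rcases mem_insert.mp he with rfl | he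
      · exact (SimpleGraph.mem_edgeSet G).mpr hvb
      · exact hM.1 e (mem_erase.mp he).2
    · intro e he e' he' w hw hw'
      rcases mem_insert.mp he with rfl | he
      · rcases mem_insert.mp he' with rfl | he'
        · rfl
        rcases mem_insert.mp he' with rfl | he'
        · exfalso
          rcases Sym2.mem_iff.mp hw with h1 | h1 <;> rcases Sym2.mem_iff.mp hw' with h2 | h2
          · exact huv (h1.symm.trans h2)
          · exact hbu (h2.symm.trans h1)
          · exact hav (h1.symm.trans h2)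
          · exact hne (h1.symm.trans h2)
        · exfalso
          obtain ⟨n1, n2, n3, n4⟩ := hother e' he' w hw'
          rcases Sym2.mem_iff.mp hw with h1 | h1
          · exact n1 h1
          · exact n3 h1
      rcases mem_insert.mp he with rfl | he
      · rcases mem_insert.mp he' with rfl | he'
        · exfalso
          rcases Sym2.mem_iff.mp hw with h1 | h1 <;> rcases Sym2.mem_iff.mp hw' with h2 | h2
          · exact huv (h2.symm.trans h1)
          · exact hav (h2.symm.trans h1)
          · exact hbu (h1.symm.trans h2)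
          · exact hne (h2.symm.trans h1)
        rcases mem_insert.mp he' with rfl | he'
        · rfl
        · exfalso
          obtain ⟨n1, n2, n3, n4⟩ := hother e' he' w hw'
          rcases Sym2.mem_iff.mp hw with h1 | h1
          · exact n2 h1
          · exact n4 h1
      · rcases mem_insert.mp he' with rfl | he'
        · exfalso
          obtain ⟨n1, n2, n3, n4⟩ := hother e he w hw
          rcases Sym2.mem_iff.mp hw' with h1 | h1
          · exact n1 h1
          · exact n3 h1
        rcases mem_insert.mp he' with rfl | he'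
        · exfalso
          obtain ⟨n1, n2, n3, n4⟩ := hother e he w hw
          rcases Sym2.mem_iff.mp hw' with h1 | h1
          · exact n2 h1
          · exact n4 h1
        · exact hM.2 e (mem_erase.mp he).2 e' (mem_erase.mp he').2 w hw hw'
    · intro w
      by_cases h1 : w = u
      · exact ⟨s(u, a), mem_insert_self _ _, by rw [h1]; exact Sym2.mem_mk_left _ _⟩
      by_cases h2 : w = a
      · exact ⟨s(u, a), mem_insert_self _ _, by rw [h2]; exact Sym2.mem_mk_right _ _⟩
      by_cases h3 : w = v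
      · exact ⟨s(v, b), mem_insert_of_mem (mem_insert_self _ _),
          by rw [h3]; exact Sym2.mem_mk_left _ _⟩
      by_cases h4 : w = b
      · exact ⟨s(v, b), mem_insert_of_mem (mem_insert_self _ _),
          by rw [h4]; exact Sym2.mem_mk_right _ _⟩
      obtain ⟨e, he, hw⟩ := hcov w h1 h3
      refine ⟨e, mem_insert_of_mem (mem_insert_of_mem (mem_erase.mpr ⟨?_, he⟩)), hw⟩
      rintro rfl
      rcases Sym2.mem_iff.mp hw with h | h
      · exact h2 h
      · exact h4 h
    · intro h
      rcases mem_insert.mp h with h | h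
      · exact hav (Sym2.congr_right.mp h).symm
      rcases mem_insert.mp h with h | h
      · rcases Sym2.eq_iff.mp h with ⟨h1, -⟩ | ⟨h1, -⟩
        · exact huv h1
        · exact hbu h1.symm
      · exact huvM (mem_erase.mp h).2
    · rw [erase_insert hua_notin, erase_insert hvb_notin, insert_erase hab]

theorem result {V : Type*} [Fintype V] [DecidableEq V] (G : SimpleGraph V) [DecidableRel G.Adj]
    (hOre : ∀ u v : V, u ≠ v → ¬ G.Adj u v → Fintype.card V ≤ G.degree u + G.degree v + 1) :
    Set.ncard {M : Finset (Sym2 V) | IsNearPerfect G M}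
      ≤ (Fintype.card V).choose 2 * Set.ncard {M : Finset (Sym2 V) | IsPerfect G M} := by
  classical
  have key : ∀ M, IsNearPerfect G M → ∃ M', IsPerfect G M' ∧ ∃ u v, u ≠ v ∧
      (∀ w, ¬ Covered M w ↔ (w = u ∨ w = v)) ∧ Rel u v M M' := by
    rintro M ⟨hM, u, v, huv, hunc⟩
    obtain ⟨M', h1, h2⟩ := augment G hOre M hM u v huv hunc
    exact ⟨M', h1, u, v, huv, hunc, h2⟩
  let φ : Finset (Sym2 V) → Finset (Sym2 V) := fun M =>
    if h : IsNearPerfect G M then Classical.choose (key M h) else ∅
  let unc : Finset (Sym2 V) → Finset V := fun M => univ.filter (fun w => ¬ Covered M w)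
  let NP : Finset (Finset (Sym2 V)) := univ.filter (fun M => IsNearPerfect G M)
  let PM : Finset (Finset (Sym2 V)) := univ.filter (fun M => IsPerfect G M)
  have hNP : Set.ncard {M : Finset (Sym2 V) | IsNearPerfect G M} = NP.card := by
    rw [← Set.ncard_coe_finset]
    congr 1
    ext M
    simp [NP]
  have hPM : Set.ncard {M : Finset (Sym2 V) | IsPerfect G M} = PM.card := by
    rw [← Set.ncard_coe_finset]
    congr 1
    ext M
    simp [PM]
  rw [hNP, hPM]
  have hφ : ∀ M (h : IsNearPerfect G M), IsPerfect G (φ M) ∧ ∃ u v, u ≠ v ∧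
      (∀ w, ¬ Covered M w ↔ (w = u ∨ w = v)) ∧ Rel u v M (φ M) := by
    intro M h
    simp only [φ, dif_pos h]
    exact Classical.choose_spec (key M h)
  have hle : NP.card ≤ (PM ×ˢ powersetCard 2 (univ : Finset V)).card := by
    apply Finset.card_le_card_of_injOn (fun M => (φ M, unc M))
    · intro M hM
      have hM' : IsNearPerfect G M := by simpa [NP] using hM
      obtain ⟨h1, u, v, huv, hunc, -⟩ := hφ M hM'
      rw [mem_coe, mem_product]
      refine ⟨by simpa [PM] using h1, ?_⟩
      rw [mem_powersetCard]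
      refine ⟨subset_univ _, ?_⟩
      have : unc M = {u, v} := by
        ext w
        simp [unc, hunc]
      show (unc M).card = 2
      rw [this, card_pair huv]
    · intro M1 hM1 M2 hM2 heq
      have hM1' : IsNearPerfect G M1 := by simpa [NP] using hM1
      have hM2' : IsNearPerfect G M2 := by simpa [NP] using hM2
      obtain ⟨h1, u1, v1, huv1, hunc1, r1⟩ := hφ M1 hM1'
      obtain ⟨h2, u2, v2, huv2, hunc2, r2⟩ := hφ M2 hM2'
      simp only [Prod.mk.injEq] at heq
      obtain ⟨e1, e2⟩ := heq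
      rw [← e1] at r2
      have hsame : ∀ w, (w = u1 ∨ w = v1) ↔ (w = u2 ∨ w = v2) := by
        intro w
        rw [← hunc1 w, ← hunc2 w]
        have h3 : w ∈ unc M1 ↔ w ∈ unc M2 := by rw [e2]
        simpa [unc] using h3
      have h3 : (u2 = u1 ∧ v2 = v1) ∨ (u2 = v1 ∧ v2 = u1) := by
        have a1 := (hsame u2).mpr (Or.inl rfl)
        have a2 := (hsame v2).mpr (Or.inr rfl)
        rcases a1 with a1 | a1 <;> rcases a2 with a2 | a2
        · exact absurd (a1.trans a2.symm) huv2
        · exact Or.inl ⟨a1, a2⟩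
        · exact Or.inr ⟨a1, a2⟩
        · exact absurd (a1.trans a2.symm) huv2
      rcases h3 with ⟨rfl, rfl⟩ | ⟨rfl, rfl⟩
      · exact rel_inj h1.1 r1 r2
      · exact rel_inj h1.1 r1 r2.symm
  calc NP.card ≤ (PM ×ˢ powersetCard 2 (univ : Finset V)).card := hle
    _ = (Fintype.card V).choose 2 * PM.card := by
        rw [card_product, card_powersetCard, card_univ, mul_comm]

end Vale.Agent.Results.P308.OreTypeNearPerfectRatio
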