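import Mathlib
import Vale.Agent.Helper18.ExpPath
import Vale.Agent.Results.P308.BoundedIndependenceRatio

namespace Vale.Agent.Results.P308.RegularExpanderRatio

open Finset
open Vale.Agent.Results.P308.BoundedIndependenceRatio
open Vale.Agent.Helper18.Exp

variable {V : Type*} [Fintype V] [DecidableEq V]

omit [DecidableEq V] in
/-- The mean-zero form of the spectral hypothesis implies the variational form used in the
counting argument. -/
theorem spec_of (G : SimpleGraph V) [DecidableRel G.Adj] (d : ℕ) (lam : ℝ)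
    (hreg : ∀ v, G.degree v = d) (hN : 0 < Fintype.card V)
    (hspec : ∀ f : V → ℝ, ∑ x, f x = 0 →
      ∑ x, ((G.adjMatrix ℝ).mulVec f x) ^ 2 ≤ lam ^ 2 * ∑ x, f x ^ 2) :
    Spec G d lam := by
  intro f
  have hN' : (0 : ℝ) < (Fintype.card V : ℝ) := by exact_mod_cast hN
  have h0 : ∑ x, (f x - (∑ y, f y) / (Fintype.card V : ℝ)) = 0 := by
    rw [Finset.sum_sub_distrib, Finset.sum_const, card_univ, nsmul_eq_mul]
    field_simp
    ring
  have h1 := hspec (fun x => f x - (∑ y, f y) / (Fintype.card V : ℝ)) h0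
  have h2 : ∀ x, (G.adjMatrix ℝ).mulVec (fun x => f x - (∑ y, f y) / (Fintype.card V : ℝ)) x
      = ∑ y ∈ G.neighborFinset x, f y - (d : ℝ) / (Fintype.card V : ℝ) * ∑ y, f y := by
    intro x
    rw [SimpleGraph.adjMatrix_mulVec_apply, Finset.sum_sub_distrib, Finset.sum_const,
      SimpleGraph.card_neighborFinset_eq_degree, hreg, nsmul_eq_mul]
    ring
  simp_rw [h2] at h1
  exact h1

omit [Fintype V] [DecidableEq V] in
/-- The partner function of a matching. -/
theorem exists_mate (G : SimpleGraph V) (M : Finset (Sym2 V)) (hM : IsMatching G M) :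
    ∃ τ : V → V, (∀ x, Covered M x → s(x, τ x) ∈ M) ∧ (∀ x, ¬ Covered M x → τ x = x) ∧
      (∀ x, τ (τ x) = x) ∧ (∀ x, Covered M x → τ x ≠ x) := by
  classical
  let τ : V → V := fun x => if h : ∃ y, s(x, y) ∈ M then Classical.choose h else x
  have hτ : ∀ x, Covered M x → s(x, τ x) ∈ M := by
    rintro x ⟨e, he, hx⟩
    obtain ⟨y, rfl⟩ := Sym2.mem_iff_exists.mp hx
    have h : ∃ y, s(x, y) ∈ M := ⟨y, he⟩
    simp only [τ, dif_pos h]
    exact Classical.choose_spec h
  have hτ' : ∀ x, ¬ Covered M x → τ x = x := by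
    intro x hx
    have h : ¬ ∃ y, s(x, y) ∈ M := fun ⟨y, hy⟩ => hx ⟨_, hy, Sym2.mem_mk_left _ _⟩
    simp only [τ, dif_neg h]
  have hτne : ∀ x, Covered M x → τ x ≠ x := by
    intro x hx h
    have h1 := hτ x hx
    rw [h] at h1
    exact ((SimpleGraph.mem_edgeSet G).mp (hM.1 _ h1)).ne rfl
  have hττ : ∀ x, τ (τ x) = x := by
    intro x
    by_cases hx : Covered M x
    · have h1 := hτ x hx
      have hc : Covered M (τ x) := ⟨_, h1, Sym2.mem_mk_right _ _⟩
      have h2 := hτ (τ x) hc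
      have h3 := hM.2 _ h2 _ h1 (τ x) (Sym2.mem_mk_left _ _) (Sym2.mem_mk_right _ _)
      rcases Sym2.eq_iff.mp h3 with ⟨a, b⟩ | ⟨a, b⟩
      · exact absurd a (hτne x hx)
      · exact b
    · rw [hτ' x hx, hτ' x hx]
  exact ⟨τ, hτ, hτ', hττ, hτne⟩

/-- The successors of `a` with respect to a matching `M'`: the neighbours of the partner
of `a`. -/
def msc (G : SimpleGraph V) [DecidableRel G.Adj] (M' : Finset (Sym2 V)) (a : V) : Finset V :=
  univ.filter (fun b => ∃ c, s(a, c) ∈ M' ∧ G.Adj c b)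

theorem msc_card_le (G : SimpleGraph V) [DecidableRel G.Adj] (d : ℕ)
    (hreg : ∀ v, G.degree v = d) (M' : Finset (Sym2 V)) (hM' : IsMatching G M') (a : V) :
    (msc G M' a).card ≤ d := by
  by_cases h : ∃ c, s(a, c) ∈ M'
  · obtain ⟨c0, hc0⟩ := h
    rw [← hreg c0, ← SimpleGraph.card_neighborFinset_eq_degree]
    apply Finset.card_le_card
    intro b hb
    simp only [msc, mem_filter, mem_univ, true_and] at hb
    obtain ⟨c, hc, hadj⟩ := hb
    have h1 : s(a, c) = s(a, c0) :=
      hM'.2 _ hc _ hc0 a (Sym2.mem_mk_left _ _) (Sym2.mem_mk_left _ _)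
    have hcc : c = c0 := by
      rcases Sym2.eq_iff.mp h1 with ⟨-, h⟩ | ⟨h2, h3⟩
      · exact h
      · rw [h3, h2]
    subst hcc
    simp [hadj]
  · have h2 : msc G M' a = ∅ := by
      apply Finset.eq_empty_of_forall_notMem
      intro b hb
      simp only [msc, mem_filter, mem_univ, true_and] at hb
      obtain ⟨c, hc, -⟩ := hb
      exact h ⟨c, hc⟩
    rw [h2]
    simp

/-- **Near-perfect versus perfect matchings in regular spectral expanders.**
Let `G` be a `d`-regular graph on `n` vertices such that `‖A f‖ ≤ lam ‖f‖` for every `f`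
orthogonal to the constants (`A` the adjacency matrix), with `8 lam ≤ d`, and let `m` be such
that `n lam^m ≤ d^m` and `d ≥ 500 m^2`.  Then `d` times the number of near-perfect matchings
of `G` is at most `2 n^2` times the number of perfect matchings. -/
theorem result {V : Type*} [Fintype V] [DecidableEq V] (G : SimpleGraph V) [DecidableRel G.Adj]
    (d m : ℕ) (lam : ℝ) (hreg : G.IsRegularOfDegree d) (hlam0 : 0 ≤ lam) (hlam : 8 * lam ≤ d)
    (hspec : ∀ f : V → ℝ, ∑ x, f x = 0 →
      ∑ x, ((G.adjMatrix ℝ).mulVec f x) ^ 2 ≤ lam ^ 2 * ∑ x, f x ^ 2)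
    (hmix : (Fintype.card V : ℝ) * lam ^ m ≤ (d : ℝ) ^ m) (hd : 500 * m ^ 2 ≤ d) :
    d * Set.ncard {M : Finset (Sym2 V) | IsNearPerfect G M}
      ≤ 2 * Fintype.card V ^ 2 * Set.ncard {M : Finset (Sym2 V) | IsPerfect G M} := by
  classical
  let NP : Finset (Finset (Sym2 V)) := univ.filter (fun M => IsNearPerfect G M)
  let PM : Finset (Finset (Sym2 V)) := univ.filter (fun M => IsPerfect G M)
  have hNP : Set.ncard {M : Finset (Sym2 V) | IsNearPerfect G M} = NP.card := by
    rw [← Set.ncard_coe_finset]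
    congr 1
    ext M
    simp [NP]
  have hPM : Set.ncard {M : Finset (Sym2 V) | IsPerfect G M} = PM.card := by
    rw [← Set.ncard_coe_finset]
    congr 1
    ext M
    simp [PM]
  rw [hNP, hPM]
  by_cases hne : NP = ∅
  · rw [hne]
    simp
  obtain ⟨M0, hM0⟩ := Finset.nonempty_iff_ne_empty.mpr hne
  have hM0' : IsNearPerfect G M0 := by simpa [NP] using hM0
  obtain ⟨-, u0, v0, huv0, -⟩ := hM0'
  have hN2 : 2 ≤ Fintype.card V := by
    have h1 := Finset.card_le_univ ({u0, v0} : Finset V)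
    rw [Finset.card_pair huv0] at h1
    exact h1
  have hN2' : (2 : ℝ) ≤ (Fintype.card V : ℝ) := by exact_mod_cast hN2
  have hm : 1 ≤ m := by
    by_contra h
    have h0 : m = 0 := by omega
    subst h0
    simp only [pow_zero, mul_one] at hmix
    linarith
  have hreg' : ∀ v, G.degree v = d := hreg
  have hSpec : Spec G d lam := spec_of G d lam hreg' (by omega) hspec
  have key : ∀ M, IsNearPerfect G M → ∃ (u v : V) (τ : V → V), u ≠ v ∧
      (∀ w, ¬ Covered M w ↔ (w = u ∨ w = v)) ∧ (∀ x, Covered M x → s(x, τ x) ∈ M) ∧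
      (∀ x, ¬ Covered M x → τ x = x) ∧ (∀ x, τ (τ x) = x) ∧ (∀ x, Covered M x → τ x ≠ x) := by
    rintro M ⟨hM, u, v, huv, hunc⟩
    obtain ⟨τ, h1, h2, h3, h4⟩ := exists_mate G M hM
    exact ⟨u, v, τ, huv, hunc, h1, h2, h3, h4⟩
  have hne_V : Nonempty V := ⟨u0⟩
  choose! U W T hUW hunc hT1 hT2 hT3 hT4 using key
  obtain ⟨k, hk⟩ : ∃ k, k = 2 * m := ⟨_, rfl⟩
  have hHyp : ∀ M, IsNearPerfect G M → Hyp G (T M) d lam m := by
    intro M hM
    refine ⟨hN2, hSpec, hreg', hT3 M hM, ?_, hlam0, hlam, hm, hmix, hd⟩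
    have hsub : univ.filter (fun x => T M x = x) ⊆ {U M, W M} := by
      intro x hx
      simp only [mem_filter, mem_univ, true_and] at hx
      have h1 : ¬ Covered M x := fun hc => hT4 M hM x hc hx
      have h2 := (hunc M hM x).mp h1
      simpa using h2
    exact le_trans (Finset.card_le_card hsub) Finset.card_le_two
  let GP : Finset (Sym2 V) → Finset (List V × List V) := fun M =>
    ((walks (sc G (T M)) k (U M)) ×ˢ (walks (sc G (T M)) k (W M))).filter
      (fun xy => Good G (T M) (U M) (W M) xy.1 xy.2)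
  have hGP : ∀ M ∈ NP, (d : ℝ) * ((d : ℝ) ^ k) ^ 2 / (2 * (Fintype.card V : ℝ))
      ≤ ((GP M).card : ℝ) := by
    intro M hM
    have hM' : IsNearPerfect G M := by simpa [NP] using hM
    have h1 := good_ge (hHyp M hM') k hk (U M) (W M)
    refine le_trans h1 (le_of_eq ?_)
    rw [← Finset.sum_product', Finset.sum_boole]
  let Dset : Finset (Σ _ : Finset (Sym2 V), List V × List V) := NP.sigma GP
  have hDcard : (NP.card : ℝ) * ((d : ℝ) * ((d : ℝ) ^ k) ^ 2 / (2 * (Fintype.card V : ℝ)))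
      ≤ (Dset.card : ℝ) := by
    rw [Finset.card_sigma]
    push_cast
    rw [← nsmul_eq_mul, ← Finset.sum_const]
    exact Finset.sum_le_sum hGP
  let pth : (Σ _ : Finset (Sym2 V), List V × List V) → ℕ → V :=
    fun z => apath (T z.1) k (U z.1) (W z.1) z.2.1 z.2.2
  let Φ : (Σ _ : Finset (Sym2 V), List V × List V) → Finset (Sym2 V) × V × List V :=
    fun z => ((z.1 \ pathB (2 * k) (pth z)) ∪ pathA (2 * k) (pth z), pth z 0,
      (List.range (2 * k)).map (fun i => pth z (2 * (i + 1))))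
  let Tset : Finset (Finset (Sym2 V) × V × List V) :=
    PM.biUnion (fun M' => (univ : Finset V).biUnion
      (fun s => (walks (msc G M') (2 * k) s).image (fun L => (M', s, L))))
  have hTcard : Tset.card ≤ PM.card * (Fintype.card V * d ^ (2 * k)) := by
    calc Tset.card ≤ ∑ M' ∈ PM, ((univ : Finset V).biUnion
          (fun s => (walks (msc G M') (2 * k) s).image (fun L => (M', s, L)))).card :=
          Finset.card_biUnion_le
      _ ≤ ∑ _M' ∈ PM, (Fintype.card V * d ^ (2 * k)) := by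
          apply Finset.sum_le_sum
          intro M' hM'
          have hM'' : IsPerfect G M' := by simpa [PM] using hM'
          calc _ ≤ ∑ s : V, ((walks (msc G M') (2 * k) s).image (fun L => (M', s, L))).card :=
                Finset.card_biUnion_le
            _ ≤ ∑ _s : V, d ^ (2 * k) :=
                Finset.sum_le_sum (fun s _ => le_trans Finset.card_image_le
                  (card_walks_le _ d (msc_card_le G d hreg' M' hM''.1) _ s))
            _ = Fintype.card V * d ^ (2 * k) := by rw [Finset.sum_const, card_univ, smul_eq_mul]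
      _ = PM.card * (Fintype.card V * d ^ (2 * k)) := by rw [Finset.sum_const, smul_eq_mul]
  have hfacts : ∀ z ∈ Dset, IsNearPerfect G z.1 ∧
      z.2.1 ∈ walks (sc G (T z.1)) k (U z.1) ∧ z.2.2 ∈ walks (sc G (T z.1)) k (W z.1) ∧
      IsAug G z.1 (U z.1) (W z.1) (2 * k) (pth z) := by
    intro z hz
    rw [Finset.mem_sigma] at hz
    have hM : IsNearPerfect G z.1 := by simpa [NP] using hz.1
    have h2 := hz.2
    simp only [GP, mem_filter, mem_product] at h2
    exact ⟨hM, h2.1.1, h2.1.2, aug_of_good G z.1 (U z.1) (W z.1) (hUW _ hM) (hunc _ hM) (T z.1)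
      (hT1 _ hM) (hT2 _ hM) (hT3 _ hM) k z.2.1 z.2.2 h2.1.1 h2.1.2 h2.2⟩
  have hmaps : ∀ z ∈ Dset, Φ z ∈ Tset := by
    intro z hz
    obtain ⟨hM, -, -, haug⟩ := hfacts z hz
    obtain ⟨hperf, -⟩ := augment G z.1 hM.1 (U z.1) (W z.1) (hunc _ hM) (2 * k) (pth z) haug
    simp only [Tset, mem_biUnion, mem_image, mem_univ, true_and]
    refine ⟨_, by simpa [PM] using hperf, pth z 0,
      (List.range (2 * k)).map (fun i => pth z (2 * (i + 1))), ?_, rfl⟩
    apply mem_walks_intro (msc G _) (2 * k) (fun i => pth z (2 * i))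
    intro i hi
    simp only [msc, mem_filter, mem_univ, true_and]
    refine ⟨pth z (2 * i + 1), ?_, ?_⟩
    · apply mem_union_right
      simp only [pathA, mem_image, mem_range]
      exact ⟨i, by omega, rfl⟩
    · have h3 := haug.2.2.2.2 i hi
      exact (SimpleGraph.mem_edgeSet G).mp (hM.1.1 _ h3)
  have hinj : Set.InjOn Φ (Dset : Set (Σ _ : Finset (Sym2 V), List V × List V)) := by
    intro z1 hz1 z2 hz2 heq
    obtain ⟨hM1, hx1, hy1, haug1⟩ := hfacts z1 hz1
    obtain ⟨hM2, hx2, hy2, haug2⟩ := hfacts z2 hz2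
    obtain ⟨hperf1, hrec1⟩ := augment G z1.1 hM1.1 _ _ (hunc _ hM1) (2 * k) (pth z1) haug1
    obtain ⟨hperf2, hrec2⟩ := augment G z2.1 hM2.1 _ _ (hunc _ hM2) (2 * k) (pth z2) haug2
    simp only [Φ, Prod.mk.injEq] at heq
    obtain ⟨hMeq, h0, hlist⟩ := heq
    have heven : ∀ i, i ≤ 2 * k → pth z1 (2 * i) = pth z2 (2 * i) := by
      intro i hi
      rcases Nat.eq_zero_or_pos i with rfl | hi0
      · exact h0
      · obtain ⟨i', rfl⟩ : ∃ i', i = i' + 1 := ⟨i - 1, by omega⟩
        exact (List.map_inj_left.mp hlist) i' (List.mem_range.mpr (by omega))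
    have hodd : ∀ i, i ≤ 2 * k → pth z1 (2 * i + 1) = pth z2 (2 * i + 1) := by
      intro i hi
      have e1 : s(pth z1 (2 * i), pth z1 (2 * i + 1))
          ∈ (z1.1 \ pathB (2 * k) (pth z1)) ∪ pathA (2 * k) (pth z1) := by
        apply mem_union_right
        simp only [pathA, mem_image, mem_range]
        exact ⟨i, by omega, rfl⟩
      have e2 : s(pth z2 (2 * i), pth z2 (2 * i + 1))
          ∈ (z1.1 \ pathB (2 * k) (pth z1)) ∪ pathA (2 * k) (pth z1) := by
        rw [hMeq]
        apply mem_union_right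
        simp only [pathA, mem_image, mem_range]
        exact ⟨i, by omega, rfl⟩
      have e3 := hperf1.1.2 _ e1 _ e2 (pth z1 (2 * i)) (Sym2.mem_mk_left _ _)
        (by rw [heven i hi]; exact Sym2.mem_mk_left _ _)
      rw [heven i hi] at e3
      rcases Sym2.eq_iff.mp e3 with ⟨-, h⟩ | ⟨h1, h2⟩
      · exact h
      · rw [h2, h1]
    have hall : ∀ n, n ≤ 2 * (2 * k) + 1 → pth z1 n = pth z2 n := by
      intro n hn
      rcases Nat.even_or_odd' n with ⟨i, rfl | rfl⟩
      · exact heven i (by omega)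
      · exact hodd i (by omega)
    have hA : pathA (2 * k) (pth z1) = pathA (2 * k) (pth z2) := by
      unfold pathA
      apply Finset.image_congr
      intro i hi
      have hi' : i < 2 * k + 1 := by simpa using hi
      show s(pth z1 (2 * i), pth z1 (2 * i + 1)) = s(pth z2 (2 * i), pth z2 (2 * i + 1))
      rw [hall (2 * i) (by omega), hall (2 * i + 1) (by omega)]
    have hB : pathB (2 * k) (pth z1) = pathB (2 * k) (pth z2) := by
      unfold pathB
      apply Finset.image_congr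
      intro i hi
      have hi' : i < 2 * k := by simpa using hi
      show s(pth z1 (2 * i + 1), pth z1 (2 * i + 2)) = s(pth z2 (2 * i + 1), pth z2 (2 * i + 2))
      rw [hall (2 * i + 1) (by omega), hall (2 * i + 2) (by omega)]
    have hM12 : z1.1 = z2.1 := by rw [hrec1, hrec2, hMeq, hA, hB]
    obtain ⟨M1, x1, y1⟩ := z1
    obtain ⟨M2, x2, y2⟩ := z2
    simp only at hM12
    subst hM12
    simp only at hx1 hx2 hy1 hy2
    have lx1 := (mem_walks_elim _ _ _ _ hx1).1
    have lx2 := (mem_walks_elim _ _ _ _ hx2).1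
    have ly1 := (mem_walks_elim _ _ _ _ hy1).1
    have ly2 := (mem_walks_elim _ _ _ _ hy2).1
    have hx : x1 = x2 := by
      apply nth_ext (U M1) (U M1) x1 x2 (by rw [lx1, lx2])
      intro i h1 h2
      have h3 := heven i (by omega)
      simp only [pth] at h3
      rw [apath_readX _ _ _ _ _ _ i (by omega), apath_readX _ _ _ _ _ _ i (by omega)] at h3
      exact h3
    have hy : y1 = y2 := by
      apply nth_ext (W M1) (W M1) y1 y2 (by rw [ly1, ly2])
      intro j h1 h2
      have h3 := hall (4 * k + 1 - 2 * j) (by omega)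
      simp only [pth] at h3
      rw [apath_readY _ _ _ _ _ _ j (by omega), apath_readY _ _ _ _ _ _ j (by omega)] at h3
      exact h3
    rw [hx, hy]
  have hcard : Dset.card ≤ Tset.card := Finset.card_le_card_of_injOn Φ hmaps hinj
  have hR : (d : ℝ) * (NP.card : ℝ) ≤ 2 * (Fintype.card V : ℝ) ^ 2 * (PM.card : ℝ) := by
    have h1 : (Dset.card : ℝ)
        ≤ (PM.card : ℝ) * ((Fintype.card V : ℝ) * (d : ℝ) ^ (2 * k)) := by
      exact_mod_cast le_trans hcard hTcard
    have h2 := le_trans hDcard h1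
    have hdR : (500 : ℝ) * (m : ℝ) ^ 2 ≤ (d : ℝ) := by exact_mod_cast hd
    have hmR : (1 : ℝ) ≤ (m : ℝ) := by exact_mod_cast hm
    have hd0 : (0 : ℝ) < (d : ℝ) := by nlinarith
    have hP : (0 : ℝ) < ((d : ℝ) ^ k) ^ 2 := by positivity
    have e : (d : ℝ) ^ (2 * k) = ((d : ℝ) ^ k) ^ 2 := by rw [pow_mul']
    rw [e] at h2
    have hN0 : (0 : ℝ) < (Fintype.card V : ℝ) := by linarith
    have h3 : (NP.card : ℝ) * ((d : ℝ) * ((d : ℝ) ^ k) ^ 2 / (2 * (Fintype.card V : ℝ)))
        = ((d : ℝ) * (NP.card : ℝ) / (2 * (Fintype.card V : ℝ))) * ((d : ℝ) ^ k) ^ 2 := by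
      ring
    have h4 : (PM.card : ℝ) * ((Fintype.card V : ℝ) * ((d : ℝ) ^ k) ^ 2)
        = ((PM.card : ℝ) * (Fintype.card V : ℝ)) * ((d : ℝ) ^ k) ^ 2 := by ring
    rw [h3, h4] at h2
    have h5 := le_of_mul_le_mul_right h2 hP
    rw [div_le_iff₀ (by positivity)] at h5
    calc (d : ℝ) * (NP.card : ℝ)
        ≤ (PM.card : ℝ) * (Fintype.card V : ℝ) * (2 * (Fintype.card V : ℝ)) := h5
      _ = 2 * (Fintype.card V : ℝ) ^ 2 * (PM.card : ℝ) := by ring
  exact_mod_cast hR

end Vale.Agent.Results.P308.RegularExpanderRatio
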