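import Mathlib
import Vale.Agent.Helper18.ExpReach
import Vale.Agent.Helper18.ExpPath
import Vale.Agent.Results.P308.BoundedIndependenceRatio
import Vale.Agent.Results.P308.RegularExpanderRatio

namespace Vale.Agent.Results.P308.SpectralExpanderPolyRatio

open Finset
open Vale.Agent.Results.P308.BoundedIndependenceRatio
open Vale.Agent.Results.P308.RegularExpanderRatio
open Vale.Agent.Helper18.Exp

variable {V : Type*} [Fintype V] [DecidableEq V]

/-- In a regular graph with at least one edge, the second largest absolute eigenvalue is at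
least one. -/
theorem lam_ge_one (G : SimpleGraph V) [DecidableRel G.Adj] (d : ℕ) (lam : ℝ)
    (hreg : ∀ v, G.degree v = d) (hd : 0 < d) (hlam0 : 0 ≤ lam)
    (hspec : ∀ f : V → ℝ, ∑ x, f x = 0 →
      ∑ x, ((G.adjMatrix ℝ).mulVec f x) ^ 2 ≤ lam ^ 2 * ∑ x, f x ^ 2) (a : V) : 1 ≤ lam := by
  have hne : (G.neighborFinset a).Nonempty := by
    rw [← Finset.card_pos, SimpleGraph.card_neighborFinset_eq_degree, hreg]
    exact hd
  obtain ⟨b, hb⟩ := hne
  have hab : G.Adj a b := (G.mem_neighborFinset a b).mp hb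
  have hne : a ≠ b := hab.ne
  set f : V → ℝ := fun y => (if y = a then (1 : ℝ) else 0) - (if y = b then (1 : ℝ) else 0)
    with hf
  have hsum : ∑ x, f x = 0 := by
    simp only [hf, Finset.sum_sub_distrib, Finset.sum_ite_eq', mem_univ, if_true]
    norm_num
  have hsq : ∑ x, f x ^ 2 = 2 := by
    have h1 : ∀ x, f x ^ 2
        = (if x = a then (1 : ℝ) else 0) + (if x = b then (1 : ℝ) else 0) := by
      intro x
      simp only [hf]
      by_cases h1 : x = a
      · have h2 : x ≠ b := fun h => hne (h1.symm.trans h)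
        rw [if_pos h1, if_neg h2]
        norm_num
      · by_cases h2 : x = b
        · rw [if_neg h1, if_pos h2]
          norm_num
        · rw [if_neg h1, if_neg h2]
          norm_num
    simp only [h1, Finset.sum_add_distrib, Finset.sum_ite_eq', mem_univ, if_true]
    norm_num
  have hA : ∀ x, (G.adjMatrix ℝ).mulVec f x
      = (if a ∈ G.neighborFinset x then (1 : ℝ) else 0)
        - (if b ∈ G.neighborFinset x then (1 : ℝ) else 0) := by
    intro x
    rw [SimpleGraph.adjMatrix_mulVec_apply]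
    simp only [hf, Finset.sum_sub_distrib, Finset.sum_ite_eq']
  have hAa : (G.adjMatrix ℝ).mulVec f a = -1 := by
    rw [hA]
    simp [hab]
  have hAb : (G.adjMatrix ℝ).mulVec f b = 1 := by
    rw [hA]
    simp [hab.symm]
  have h2 : (2 : ℝ) ≤ ∑ x, ((G.adjMatrix ℝ).mulVec f x) ^ 2 := by
    have h3 : ∑ x ∈ ({a, b} : Finset V), ((G.adjMatrix ℝ).mulVec f x) ^ 2
        ≤ ∑ x, ((G.adjMatrix ℝ).mulVec f x) ^ 2 :=
      Finset.sum_le_sum_of_subset_of_nonneg (Finset.subset_univ _) (fun x _ _ => sq_nonneg _)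
    rw [Finset.sum_pair hne, hAa, hAb] at h3
    linarith
  have h4 := hspec f hsum
  rw [hsq] at h4
  nlinarith

/-- The condition on a round of picks seen from the perfect matching `M'` and the list `L` of
the vertices at the even positions of the alternating path. -/
def QM (M' : Finset (Sym2 V)) (s0 : V) (L : List V) (k : ℕ)
    (r : (V × Fin 32 → V) × (V × Fin 32 → V)) (i : ℕ) : Prop :=
  (∃ j, s(nth s0 L i, r.1 (nth s0 L i, j)) ∈ M') ∧
    (∃ c, s(nth s0 L (2 * k - i), c) ∈ M' ∧ ∃ j, r.2 (c, j) = nth s0 L (2 * k - i))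

open Classical in
theorem qm1 (G : SimpleGraph V) [DecidableRel G.Adj] (d : ℕ) (hreg : ∀ v, G.degree v = d)
    (M' : Finset (Sym2 V)) (hM' : IsMatching G M') (t : V) :
    d * ((picks G).filter (fun R => ∃ j, s(t, R (t, j)) ∈ M')).card ≤ 32 * (picks G).card := by
  set F : Finset V := univ.filter (fun w => s(t, w) ∈ M') with hF
  have hF1 : F.card ≤ 1 := by
    rw [Finset.card_le_one]
    intro a ha b hb
    simp only [hF, mem_filter, mem_univ, true_and] at ha hb
    have h1 := hM'.2 _ ha _ hb t (Sym2.mem_mk_left _ _) (Sym2.mem_mk_left _ _)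
    rcases Sym2.eq_iff.mp h1 with ⟨-, h⟩ | ⟨h2, h3⟩
    · exact h
    · rw [h3, h2]
  have hsub : (picks G).filter (fun R => ∃ j, s(t, R (t, j)) ∈ M')
      ⊆ (univ : Finset (Fin 32)).biUnion
        (fun j => (picks G).filter (fun R => R (t, j) ∈ F)) := by
    intro R hR
    rw [mem_filter] at hR
    obtain ⟨hRP, j, hj⟩ := hR
    rw [mem_biUnion]
    exact ⟨j, mem_univ _, mem_filter.mpr ⟨hRP, by simp [hF, hj]⟩⟩
  have hone : ∀ j : Fin 32,
      d * ((picks G).filter (fun R => R (t, j) ∈ F)).card ≤ (picks G).card := by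
    intro j
    have h1 := pi_count_one (fun c : V × Fin 32 => G.neighborFinset c.1) (t, j) F
    rw [SimpleGraph.card_neighborFinset_eq_degree, hreg] at h1
    have h2 : (G.neighborFinset t ∩ F).card ≤ 1 :=
      le_trans (Finset.card_le_card Finset.inter_subset_right) hF1
    calc d * ((picks G).filter (fun R => R (t, j) ∈ F)).card
        = (G.neighborFinset t ∩ F).card * (picks G).card := h1
      _ ≤ 1 * (picks G).card := Nat.mul_le_mul_right _ h2
      _ = (picks G).card := one_mul _
  calc d * ((picks G).filter (fun R => ∃ j, s(t, R (t, j)) ∈ M')).card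
      ≤ d * ((univ : Finset (Fin 32)).biUnion
        (fun j => (picks G).filter (fun R => R (t, j) ∈ F))).card :=
        Nat.mul_le_mul_left _ (Finset.card_le_card hsub)
    _ ≤ d * ∑ j : Fin 32, ((picks G).filter (fun R => R (t, j) ∈ F)).card :=
        Nat.mul_le_mul_left _ Finset.card_biUnion_le
    _ = ∑ j : Fin 32, d * ((picks G).filter (fun R => R (t, j) ∈ F)).card := Finset.mul_sum _ _ _
    _ ≤ ∑ _j : Fin 32, (picks G).card := Finset.sum_le_sum (fun j _ => hone j)
    _ = 32 * (picks G).card := by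
        rw [Finset.sum_const, card_univ, Fintype.card_fin, smul_eq_mul]

open Classical in
theorem qm2 (G : SimpleGraph V) [DecidableRel G.Adj] (d : ℕ) (hreg : ∀ v, G.degree v = d)
    (M' : Finset (Sym2 V)) (hM' : IsMatching G M') (w : V) :
    d * ((picks G).filter (fun R => ∃ c, s(w, c) ∈ M' ∧ ∃ j, R (c, j) = w)).card
      ≤ 32 * (picks G).card := by
  by_cases hex : ∃ c, s(w, c) ∈ M'
  · obtain ⟨c0, hc0⟩ := hex
    have hsub : (picks G).filter (fun R => ∃ c, s(w, c) ∈ M' ∧ ∃ j, R (c, j) = w)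
        ⊆ (univ : Finset (Fin 32)).biUnion
          (fun j => (picks G).filter (fun R => R (c0, j) ∈ ({w} : Finset V))) := by
      intro R hR
      rw [mem_filter] at hR
      obtain ⟨hRP, c, hc, j, hj⟩ := hR
      have h1 := hM'.2 _ hc _ hc0 w (Sym2.mem_mk_left _ _) (Sym2.mem_mk_left _ _)
      have hcc : c = c0 := by
        rcases Sym2.eq_iff.mp h1 with ⟨-, h⟩ | ⟨h2, h3⟩
        · exact h
        · rw [h3, h2]
      subst hcc
      rw [mem_biUnion]
      exact ⟨j, mem_univ _, mem_filter.mpr ⟨hRP, by simp [hj]⟩⟩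
    have hone : ∀ j : Fin 32,
        d * ((picks G).filter (fun R => R (c0, j) ∈ ({w} : Finset V))).card
          ≤ (picks G).card := by
      intro j
      have h1 := pi_count_one (fun c : V × Fin 32 => G.neighborFinset c.1) (c0, j) {w}
      rw [SimpleGraph.card_neighborFinset_eq_degree, hreg] at h1
      have h2 : (G.neighborFinset c0 ∩ {w}).card ≤ 1 :=
        le_trans (Finset.card_le_card Finset.inter_subset_right) (by simp)
      calc d * ((picks G).filter (fun R => R (c0, j) ∈ ({w} : Finset V))).card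
          = (G.neighborFinset c0 ∩ {w}).card * (picks G).card := h1
        _ ≤ 1 * (picks G).card := Nat.mul_le_mul_right _ h2
        _ = (picks G).card := one_mul _
    calc d * ((picks G).filter (fun R => ∃ c, s(w, c) ∈ M' ∧ ∃ j, R (c, j) = w)).card
        ≤ d * ((univ : Finset (Fin 32)).biUnion
          (fun j => (picks G).filter (fun R => R (c0, j) ∈ ({w} : Finset V)))).card :=
          Nat.mul_le_mul_left _ (Finset.card_le_card hsub)
      _ ≤ d * ∑ j : Fin 32, ((picks G).filter (fun R => R (c0, j) ∈ ({w} : Finset V))).card :=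
          Nat.mul_le_mul_left _ Finset.card_biUnion_le
      _ = ∑ j : Fin 32, d * ((picks G).filter (fun R => R (c0, j) ∈ ({w} : Finset V))).card :=
          Finset.mul_sum _ _ _
      _ ≤ ∑ _j : Fin 32, (picks G).card := Finset.sum_le_sum (fun j _ => hone j)
      _ = 32 * (picks G).card := by
          rw [Finset.sum_const, card_univ, Fintype.card_fin, smul_eq_mul]
  · have : (picks G).filter (fun R => ∃ c, s(w, c) ∈ M' ∧ ∃ j, R (c, j) = w) = ∅ := by
      apply Finset.filter_false_of_mem
      rintro R - ⟨c, hc, -⟩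
      exact hex ⟨c, hc⟩
    rw [this]
    simp

open Classical in
theorem qm_count (G : SimpleGraph V) [DecidableRel G.Adj] (d : ℕ) (hreg : ∀ v, G.degree v = d)
    (M' : Finset (Sym2 V)) (hM' : IsMatching G M') (s0 : V) (L : List V) (k i : ℕ) :
    d ^ 2 * ((picks G ×ˢ picks G).filter (fun r => QM M' s0 L k r i)).card
      ≤ 1024 * (picks G ×ˢ picks G).card := by
  have h1 := qm1 G d hreg M' hM' (nth s0 L i)
  have h2 := qm2 G d hreg M' hM' (nth s0 L (2 * k - i))
  have e : (picks G ×ˢ picks G).filter (fun r => QM M' s0 L k r i)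
      = ((picks G).filter (fun R => ∃ j, s(nth s0 L i, R (nth s0 L i, j)) ∈ M')) ×ˢ
        ((picks G).filter (fun R => ∃ c, s(nth s0 L (2 * k - i), c) ∈ M'
          ∧ ∃ j, R (c, j) = nth s0 L (2 * k - i))) := by
    ext r
    rw [mem_filter, mem_product, mem_product, mem_filter, mem_filter]
    unfold QM
    tauto
  rw [e, card_product, card_product]
  calc d ^ 2 * (((picks G).filter (fun R => ∃ j, s(nth s0 L i, R (nth s0 L i, j)) ∈ M')).card
        * ((picks G).filter (fun R => ∃ c, s(nth s0 L (2 * k - i), c) ∈ M'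
          ∧ ∃ j, R (c, j) = nth s0 L (2 * k - i))).card)
      = (d * ((picks G).filter (fun R => ∃ j, s(nth s0 L i, R (nth s0 L i, j)) ∈ M')).card)
        * (d * ((picks G).filter (fun R => ∃ c, s(nth s0 L (2 * k - i), c) ∈ M'
          ∧ ∃ j, R (c, j) = nth s0 L (2 * k - i))).card) := by ring
    _ ≤ (32 * (picks G).card) * (32 * (picks G).card) := Nat.mul_le_mul h1 h2
    _ = 1024 * ((picks G).card * (picks G).card) := by ring

omit [Fintype V] [DecidableEq V] in
theorem nth_range (r : ℕ) : ∀ (q : ℕ → V) (i : ℕ), i ≤ r →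
    nth (q 0) ((List.range r).map (fun i => q (i + 1))) i = q i := by
  induction r with
  | zero =>
    intro q i hi
    have : i = 0 := by omega
    subst this
    rfl
  | succ r ih =>
    intro q i hi
    rcases Nat.eq_zero_or_pos i with rfl | hi0
    · exact nth_zero _ _
    · obtain ⟨i', rfl⟩ : ∃ i', i = i' + 1 := ⟨i - 1, by omega⟩
      have e : (List.range (r + 1)).map (fun i => q (i + 1))
          = q 1 :: (List.range r).map (fun i => (fun j => q (j + 1)) (i + 1)) := by
        rw [List.range_succ_eq_map]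
        simp [Function.comp_def]
      rw [e]
      show nth (q 1) ((List.range r).map (fun i => (fun j => q (j + 1)) (i + 1))) i' = q (i' + 1)
      exact ih (fun j => q (j + 1)) i' (by omega)

omit [Fintype V] [DecidableEq V] in
theorem bridge (τ : V → V) (k : ℕ) (u v : V) (x y : List V) (M' : Finset (Sym2 V))
    (hA : ∀ i, i ≤ 2 * k →
      s(apath τ k u v x y (2 * i), apath τ k u v x y (2 * i + 1)) ∈ M')
    (r : (V × Fin 32 → V) × (V × Fin 32 → V)) (j : ℕ) (hj : j < k)
    (h : QW τ u v x y r j) :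
    QM M' (apath τ k u v x y 0)
      ((List.range (2 * k)).map (fun i => apath τ k u v x y (2 * (i + 1)))) k r j := by
  obtain ⟨⟨j1, h1⟩, ⟨j2, h2⟩⟩ := h
  have hn : ∀ i, i ≤ 2 * k → nth (apath τ k u v x y 0)
      ((List.range (2 * k)).map (fun i => apath τ k u v x y (2 * (i + 1)))) i
      = apath τ k u v x y (2 * i) := by
    intro i hi
    exact nth_range (2 * k) (fun i => apath τ k u v x y (2 * i)) i hi
  constructor
  · refine ⟨j1, ?_⟩
    rw [hn j (by omega), apath_readX _ _ _ _ _ _ j (by omega), h1]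
    have h3 := hA j (by omega)
    rw [apath_readX _ _ _ _ _ _ j (by omega), apath_lo _ _ _ _ _ _ _ (by omega), half_odd] at h3
    exact h3
  · refine ⟨nth v y j, ?_, j2, ?_⟩
    · rw [hn (2 * k - j) (by omega)]
      have h3 := hA (2 * k - j) (by omega)
      have e1 : 2 * (2 * k - j) + 1 = 4 * k + 1 - 2 * j := by omega
      rw [e1, apath_readY _ _ _ _ _ _ j (by omega)] at h3
      exact h3
    · rw [hn (2 * k - j) (by omega), h2, apath_hi _ _ _ _ _ _ _ (by omega)]
      have e2 : 4 * k + 1 - 2 * (2 * k - j) = 2 * j + 1 := by omega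
      rw [e2, half_odd]

theorem mem_seqs_length {α : Type*} [DecidableEq α] (P : Finset α) (k : ℕ) :
    ∀ l, l ∈ seqs P k → l.length = k := by
  induction k with
  | zero =>
    intro l hl
    have : l = [] := by simpa [seqs] using hl
    rw [this]
    rfl
  | succ k ih =>
    intro l hl
    have hl' : l ∈ P.biUnion (fun r => (seqs P k).image (fun l => r :: l)) := hl
    simp only [mem_biUnion, mem_image] at hl'
    obtain ⟨r, -, l', hl', rfl⟩ := hl'
    simp [ih l' hl']

theorem picks_card_pos (G : SimpleGraph V) [DecidableRel G.Adj] (d : ℕ)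
    (hreg : ∀ v, G.degree v = d) (hd : 0 < d) : 0 < (picks G).card := by
  unfold picks
  rw [Fintype.card_piFinset]
  apply Finset.prod_pos
  intro c _
  rw [SimpleGraph.card_neighborFinset_eq_degree, hreg]
  exact hd

theorem exists_scale (n : ℕ) (hn : 20 ≤ n) : ∃ k, 20 * 8 ^ k ≤ n ∧ n < 160 * 8 ^ k := by
  refine ⟨Nat.log 8 (n / 20), ?_, ?_⟩
  · have h1 : 8 ^ Nat.log 8 (n / 20) ≤ n / 20 :=
      Nat.pow_log_le_self 8 (by
        have : 1 ≤ n / 20 := (Nat.le_div_iff_mul_le (by norm_num)).mpr (by omega)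
        omega)
    have h2 := (Nat.le_div_iff_mul_le (by norm_num : 0 < 20)).mp h1
    omega
  · have h1 : n / 20 < 8 ^ (Nat.log 8 (n / 20) + 1) :=
      Nat.lt_pow_succ_log_self (by norm_num) _
    have h2 := (Nat.div_lt_iff_lt_mul (by norm_num : 0 < 20)).mp h1
    have e : 8 ^ (Nat.log 8 (n / 20) + 1) * 20 = 160 * 8 ^ Nat.log 8 (n / 20) := by ring
    omega

/-- **Near-perfect versus perfect matchings in regular spectral expanders of every degree.**
Let `G` be a `d`-regular graph on `n` vertices, `d` positive, such that `‖A f‖ ≤ lam ‖f‖` for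
every `f` orthogonal to the constants, where `A` is the adjacency matrix, with `200 lam ≤ d`.  Then the number
of near-perfect matchings of `G` is at most `n^5` times the number of perfect matchings. -/
theorem result {V : Type*} [Fintype V] [DecidableEq V] (G : SimpleGraph V) [DecidableRel G.Adj]
    (d : ℕ) (lam : ℝ) (hreg : G.IsRegularOfDegree d) (hd : 0 < d) (hlam0 : 0 ≤ lam)
    (hlam : 200 * lam ≤ d)
    (hspec : ∀ f : V → ℝ, ∑ x, f x = 0 →
      ∑ x, ((G.adjMatrix ℝ).mulVec f x) ^ 2 ≤ lam ^ 2 * ∑ x, f x ^ 2) :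
    Set.ncard {M : Finset (Sym2 V) | IsNearPerfect G M}
      ≤ Fintype.card V ^ 5 * Set.ncard {M : Finset (Sym2 V) | IsPerfect G M} := by
  classical
  let NP : Finset (Finset (Sym2 V)) := univ.filter (fun M => IsNearPerfect G M)
  let PM : Finset (Finset (Sym2 V)) := univ.filter (fun M => IsPerfect G M)
  have hNP : Set.ncard {M : Finset (Sym2 V) | IsNearPerfect G M} = NP.card := by
    rw [← Set.ncard_coe_finset]
    congr 1
    ext M
    simp [NP]
  have hPM : Set.ncard {M : Finset (Sym2 V) | IsPerfect G M} = PM.card := by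
    rw [← Set.ncard_coe_finset]
    congr 1
    ext M
    simp [PM]
  rw [hNP, hPM]
  by_cases hne : NP = ∅
  · rw [hne]
    simp
  obtain ⟨M0, hM0⟩ := Finset.nonempty_iff_ne_empty.mpr hne
  have hM0' : IsNearPerfect G M0 := by simpa [NP] using hM0
  obtain ⟨-, u0, v0, huv0, -⟩ := hM0'
  have hreg' : ∀ v, G.degree v = d := hreg
  have hN0 : 0 < Fintype.card V := Fintype.card_pos_iff.mpr ⟨u0⟩
  have hSpec : Spec G d lam := spec_of G d lam hreg' hN0 hspec
  have hlam1 : 1 ≤ lam := lam_ge_one G d lam hreg' hd hlam0 hspec u0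
  have hd200 : 200 ≤ d := by
    have : (200 : ℝ) ≤ (d : ℝ) := by linarith
    exact_mod_cast this
  have hN : 20 ≤ Fintype.card V := by
    have h1 := G.degree_lt_card_verts u0
    rw [hreg' u0] at h1
    omega
  obtain ⟨k, hk1, hk2⟩ := exists_scale (Fintype.card V) hN
  have key : ∀ M, IsNearPerfect G M → ∃ (u v : V) (τ : V → V), u ≠ v ∧
      (∀ w, ¬ Covered M w ↔ (w = u ∨ w = v)) ∧ (∀ x, Covered M x → s(x, τ x) ∈ M) ∧
      (∀ x, ¬ Covered M x → τ x = x) ∧ (∀ x, τ (τ x) = x) ∧ (∀ x, Covered M x → τ x ≠ x) := by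
    rintro M ⟨hM, u, v, huv, hunc⟩
    obtain ⟨τ, h1, h2, h3, h4⟩ := exists_mate G M hM
    exact ⟨u, v, τ, huv, hunc, h1, h2, h3, h4⟩
  have hne_V : Nonempty V := ⟨u0⟩
  choose! U W T hUW hunc hT1 hT2 hT3 hT4 using key
  let P2 : Finset ((V × Fin 32 → V) × (V × Fin 32 → V)) := picks G ×ˢ picks G
  have hP2pos : 0 < P2.card := by
    have := picks_card_pos G d hreg' hd
    simp only [P2, card_product]
    positivity
  let GP : Finset (Sym2 V) → Finset (List ((V × Fin 32 → V) × (V × Fin 32 → V))) := fun M =>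
    (seqs P2 k).filter (fun l => ∃ x y : List V,
      x ∈ walks (sc G (T M)) k (U M) ∧ y ∈ walks (sc G (T M)) k (W M) ∧
      CmpG (QW (T M) (U M) (W M) x y) l 0 ∧ Good G (T M) (U M) (W M) x y)
  have hGP : ∀ M ∈ NP, P2.card ^ k ≤ 4 ^ k * (GP M).card := by
    intro M hM
    have hM' : IsNearPerfect G M := by simpa [NP] using hM
    exact reach_top G (T M) d lam hSpec hreg' (hT3 M hM') hlam0 hlam hd k (U M) (W M)
      (hT2 M hM' _ ((hunc M hM' _).mpr (Or.inl rfl)))
      (hT2 M hM' _ ((hunc M hM' _).mpr (Or.inr rfl)))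
      (fun z hz => (hunc M hM' z).mp (fun hc => hT4 M hM' z hc hz)) hk1 hk2
  let Dset : Finset (Σ _ : Finset (Sym2 V), List ((V × Fin 32 → V) × (V × Fin 32 → V))) :=
    NP.sigma GP
  have hDcard : NP.card * P2.card ^ k ≤ 4 ^ k * Dset.card := by
    rw [Finset.card_sigma, Finset.mul_sum, ← smul_eq_mul, ← Finset.sum_const]
    exact Finset.sum_le_sum hGP
  have key2 : ∀ z : (Σ _ : Finset (Sym2 V), List ((V × Fin 32 → V) × (V × Fin 32 → V))),
      z ∈ Dset → ∃ x y : List V,
        x ∈ walks (sc G (T z.1)) k (U z.1) ∧ y ∈ walks (sc G (T z.1)) k (W z.1) ∧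
        CmpG (QW (T z.1) (U z.1) (W z.1) x y) z.2 0 ∧ Good G (T z.1) (U z.1) (W z.1) x y := by
    intro z hz
    rw [Finset.mem_sigma] at hz
    exact (mem_filter.mp hz.2).2
  choose! X Y hX hY hC hG using key2
  let pth : (Σ _ : Finset (Sym2 V), List ((V × Fin 32 → V) × (V × Fin 32 → V))) → ℕ → V :=
    fun z => apath (T z.1) k (U z.1) (W z.1) (X z) (Y z)
  let Φ : (Σ _ : Finset (Sym2 V), List ((V × Fin 32 → V) × (V × Fin 32 → V)))
      → (Finset (Sym2 V) × V × List V) × List ((V × Fin 32 → V) × (V × Fin 32 → V)) :=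
    fun z => (((z.1 \ pathB (2 * k) (pth z)) ∪ pathA (2 * k) (pth z), pth z 0,
      (List.range (2 * k)).map (fun i => pth z (2 * (i + 1)))), z.2)
  let Tset : Finset (Finset (Sym2 V) × V × List V) :=
    PM.biUnion (fun M' => (univ : Finset V).biUnion
      (fun s => (walks (msc G M') (2 * k) s).image (fun L => (M', s, L))))
  have hTcard : Tset.card ≤ PM.card * (Fintype.card V * d ^ (2 * k)) := by
    calc Tset.card ≤ ∑ M' ∈ PM, ((univ : Finset V).biUnion
          (fun s => (walks (msc G M') (2 * k) s).image (fun L => (M', s, L)))).card :=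
          Finset.card_biUnion_le
      _ ≤ ∑ _M' ∈ PM, (Fintype.card V * d ^ (2 * k)) := by
          apply Finset.sum_le_sum
          intro M' hM'
          have hM'' : IsPerfect G M' := by simpa [PM] using hM'
          calc _ ≤ ∑ s : V, ((walks (msc G M') (2 * k) s).image (fun L => (M', s, L))).card :=
                Finset.card_biUnion_le
            _ ≤ ∑ _s : V, d ^ (2 * k) :=
                Finset.sum_le_sum (fun s _ => le_trans Finset.card_image_le
                  (card_walks_le _ d (msc_card_le G d hreg' M' hM''.1) _ s))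
            _ = Fintype.card V * d ^ (2 * k) := by rw [Finset.sum_const, card_univ, smul_eq_mul]
      _ = PM.card * (Fintype.card V * d ^ (2 * k)) := by rw [Finset.sum_const, smul_eq_mul]
  have hTperf : ∀ t ∈ Tset, IsPerfect G t.1 := by
    intro t ht
    simp only [Tset, mem_biUnion, mem_image, mem_univ, true_and] at ht
    obtain ⟨M', hM', s, L, -, rfl⟩ := ht
    simpa [PM] using hM'
  let Eset : Finset ((Finset (Sym2 V) × V × List V)
      × List ((V × Fin 32 → V) × (V × Fin 32 → V))) :=
    Tset.biUnion (fun t => ((seqs P2 k).filter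
      (fun l => CmpG (QM t.1 t.2.1 t.2.2 k) l 0)).image (fun l => (t, l)))
  have hEcard : (d ^ 2) ^ k * Eset.card ≤ Tset.card * (1024 ^ k * P2.card ^ k) := by
    calc (d ^ 2) ^ k * Eset.card
        ≤ (d ^ 2) ^ k * ∑ t ∈ Tset, (((seqs P2 k).filter
            (fun l => CmpG (QM t.1 t.2.1 t.2.2 k) l 0)).image (fun l => (t, l))).card :=
          Nat.mul_le_mul_left _ Finset.card_biUnion_le
      _ = ∑ t ∈ Tset, (d ^ 2) ^ k * (((seqs P2 k).filter
            (fun l => CmpG (QM t.1 t.2.1 t.2.2 k) l 0)).image (fun l => (t, l))).card :=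
          Finset.mul_sum _ _ _
      _ ≤ ∑ _t ∈ Tset, 1024 ^ k * P2.card ^ k := by
          apply Finset.sum_le_sum
          intro t ht
          have hM'' := hTperf t ht
          refine le_trans (Nat.mul_le_mul_left _ Finset.card_image_le) ?_
          exact cmpG_count P2 (QM t.1 t.2.1 t.2.2 k) (d ^ 2) 1024
            (fun i => qm_count G d hreg' t.1 hM''.1 t.2.1 t.2.2 k i) k 0
      _ = Tset.card * (1024 ^ k * P2.card ^ k) := by rw [Finset.sum_const, smul_eq_mul]
  have hfacts : ∀ z ∈ Dset, IsNearPerfect G z.1 ∧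
      IsAug G z.1 (U z.1) (W z.1) (2 * k) (pth z) := by
    intro z hz
    have hz' := Finset.mem_sigma.mp hz
    have hM : IsNearPerfect G z.1 := by simpa [NP] using hz'.1
    exact ⟨hM, aug_of_good G z.1 (U z.1) (W z.1) (hUW _ hM) (hunc _ hM) (T z.1)
      (hT1 _ hM) (hT2 _ hM) (hT3 _ hM) k (X z) (Y z) (hX z hz) (hY z hz) (hG z hz)⟩
  have hmaps : ∀ z ∈ Dset, Φ z ∈ Eset := by
    intro z hz
    obtain ⟨hM, haug⟩ := hfacts z hz
    obtain ⟨hperf, -⟩ := augment G z.1 hM.1 (U z.1) (W z.1) (hunc _ hM) (2 * k) (pth z) haug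
    have hT : (Φ z).1 ∈ Tset := by
      simp only [Tset, mem_biUnion, mem_image, mem_univ, true_and]
      refine ⟨_, by simpa [PM] using hperf, pth z 0,
        (List.range (2 * k)).map (fun i => pth z (2 * (i + 1))), ?_, rfl⟩
      apply mem_walks_intro (msc G _) (2 * k) (fun i => pth z (2 * i))
      intro i hi
      simp only [msc, mem_filter, mem_univ, true_and]
      refine ⟨pth z (2 * i + 1), ?_, ?_⟩
      · apply mem_union_right
        simp only [pathA, mem_image, mem_range]
        exact ⟨i, by omega, rfl⟩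
      · have h3 := haug.2.2.2.2 i hi
        exact (SimpleGraph.mem_edgeSet G).mp (hM.1.1 _ h3)
    have hzl : z.2 ∈ seqs P2 k := (mem_filter.mp (Finset.mem_sigma.mp hz).2).1
    simp only [Eset, mem_biUnion, mem_image]
    refine ⟨(Φ z).1, hT, z.2, ?_, rfl⟩
    rw [mem_filter]
    refine ⟨hzl, ?_⟩
    apply cmpG_mono (QW (T z.1) (U z.1) (W z.1) (X z) (Y z)) _ k _ z.2 0 ?_ (hC z hz)
    · intro r j hj hq
      apply bridge (T z.1) k (U z.1) (W z.1) (X z) (Y z) _ _ r j hj hq
      intro i hi
      apply mem_union_right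
      simp only [pathA, mem_image, mem_range]
      exact ⟨i, by omega, rfl⟩
    · rw [mem_seqs_length P2 k z.2 hzl]
      omega
  have hinj : Set.InjOn Φ (Dset : Set (Σ _ : Finset (Sym2 V),
      List ((V × Fin 32 → V) × (V × Fin 32 → V)))) := by
    intro z1 hz1 z2 hz2 heq
    obtain ⟨hM1, haug1⟩ := hfacts z1 hz1
    obtain ⟨hM2, haug2⟩ := hfacts z2 hz2
    obtain ⟨hperf1, hrec1⟩ := augment G z1.1 hM1.1 _ _ (hunc _ hM1) (2 * k) (pth z1) haug1
    obtain ⟨hperf2, hrec2⟩ := augment G z2.1 hM2.1 _ _ (hunc _ hM2) (2 * k) (pth z2) haug2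
    simp only [Φ, Prod.mk.injEq] at heq
    obtain ⟨⟨hMeq, h0, hlist⟩, hl⟩ := heq
    have heven : ∀ i, i ≤ 2 * k → pth z1 (2 * i) = pth z2 (2 * i) := by
      intro i hi
      rcases Nat.eq_zero_or_pos i with rfl | hi0
      · exact h0
      · obtain ⟨i', rfl⟩ : ∃ i', i = i' + 1 := ⟨i - 1, by omega⟩
        exact (List.map_inj_left.mp hlist) i' (List.mem_range.mpr (by omega))
    have hodd : ∀ i, i ≤ 2 * k → pth z1 (2 * i + 1) = pth z2 (2 * i + 1) := by
      intro i hi
      have e1 : s(pth z1 (2 * i), pth z1 (2 * i + 1))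
          ∈ (z1.1 \ pathB (2 * k) (pth z1)) ∪ pathA (2 * k) (pth z1) := by
        apply mem_union_right
        simp only [pathA, mem_image, mem_range]
        exact ⟨i, by omega, rfl⟩
      have e2 : s(pth z2 (2 * i), pth z2 (2 * i + 1))
          ∈ (z1.1 \ pathB (2 * k) (pth z1)) ∪ pathA (2 * k) (pth z1) := by
        rw [hMeq]
        apply mem_union_right
        simp only [pathA, mem_image, mem_range]
        exact ⟨i, by omega, rfl⟩
      have e3 := hperf1.1.2 _ e1 _ e2 (pth z1 (2 * i)) (Sym2.mem_mk_left _ _)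
        (by rw [heven i hi]; exact Sym2.mem_mk_left _ _)
      rw [heven i hi] at e3
      rcases Sym2.eq_iff.mp e3 with ⟨-, h⟩ | ⟨h1, h2⟩
      · exact h
      · rw [h2, h1]
    have hall : ∀ n, n ≤ 2 * (2 * k) + 1 → pth z1 n = pth z2 n := by
      intro n hn
      rcases Nat.even_or_odd' n with ⟨i, rfl | rfl⟩
      · exact heven i (by omega)
      · exact hodd i (by omega)
    have hA : pathA (2 * k) (pth z1) = pathA (2 * k) (pth z2) := by
      unfold pathA
      apply Finset.image_congr
      intro i hi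
      have hi' : i < 2 * k + 1 := by simpa using hi
      show s(pth z1 (2 * i), pth z1 (2 * i + 1)) = s(pth z2 (2 * i), pth z2 (2 * i + 1))
      rw [hall (2 * i) (by omega), hall (2 * i + 1) (by omega)]
    have hB : pathB (2 * k) (pth z1) = pathB (2 * k) (pth z2) := by
      unfold pathB
      apply Finset.image_congr
      intro i hi
      have hi' : i < 2 * k := by simpa using hi
      show s(pth z1 (2 * i + 1), pth z1 (2 * i + 2)) = s(pth z2 (2 * i + 1), pth z2 (2 * i + 2))
      rw [hall (2 * i + 1) (by omega), hall (2 * i + 2) (by omega)]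
    have hM12 : z1.1 = z2.1 := by rw [hrec1, hrec2, hMeq, hA, hB]
    obtain ⟨M1, l1⟩ := z1
    obtain ⟨M2, l2⟩ := z2
    simp only at hM12 hl
    subst hM12
    subst hl
    rfl
  have hcard : Dset.card ≤ Eset.card := Finset.card_le_card_of_injOn Φ hmaps hinj
  have hD2 : 0 < d ^ (2 * k) := by positivity
  have hQ : 0 < P2.card ^ k := by positivity
  have e0 : (d ^ 2) ^ k = d ^ (2 * k) := by rw [← pow_mul]
  have hmain : d ^ (2 * k) * P2.card ^ k * NP.card
      ≤ d ^ (2 * k) * P2.card ^ k * (4 ^ k * 1024 ^ k * Fintype.card V * PM.card) := by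
    calc d ^ (2 * k) * P2.card ^ k * NP.card
        = d ^ (2 * k) * (NP.card * P2.card ^ k) := by ring
      _ ≤ d ^ (2 * k) * (4 ^ k * Dset.card) := Nat.mul_le_mul_left _ hDcard
      _ ≤ d ^ (2 * k) * (4 ^ k * Eset.card) :=
          Nat.mul_le_mul_left _ (Nat.mul_le_mul_left _ hcard)
      _ = 4 ^ k * ((d ^ 2) ^ k * Eset.card) := by rw [e0]; ring
      _ ≤ 4 ^ k * (Tset.card * (1024 ^ k * P2.card ^ k)) := Nat.mul_le_mul_left _ hEcard
      _ ≤ 4 ^ k * ((PM.card * (Fintype.card V * d ^ (2 * k))) * (1024 ^ k * P2.card ^ k)) :=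
          Nat.mul_le_mul_left _ (Nat.mul_le_mul_right _ hTcard)
      _ = d ^ (2 * k) * P2.card ^ k * (4 ^ k * 1024 ^ k * Fintype.card V * PM.card) := by ring
  have h5 : NP.card ≤ 4 ^ k * 1024 ^ k * Fintype.card V * PM.card :=
    Nat.le_of_mul_le_mul_left hmain (by positivity)
  have h6 : 4 ^ k * 1024 ^ k ≤ Fintype.card V ^ 4 := by
    have e1 : 4 ^ k * 1024 ^ k = (8 ^ k) ^ 4 := by
      rw [← mul_pow, ← pow_mul, mul_comm k 4, pow_mul]
      norm_num
    rw [e1]
    apply Nat.pow_le_pow_left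
    omega
  calc NP.card ≤ 4 ^ k * 1024 ^ k * Fintype.card V * PM.card := h5
    _ ≤ Fintype.card V ^ 4 * Fintype.card V * PM.card :=
        Nat.mul_le_mul_right _ (Nat.mul_le_mul_right _ h6)
    _ = Fintype.card V ^ 5 * PM.card := by ring

end Vale.Agent.Results.P308.SpectralExpanderPolyRatio
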