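import Mathlib
import Vale.Agent.Results.P308.SpectralExpanderPolyRatio

/-!
# P308: near-perfect versus perfect matchings in regular spectral expanders,
# stated with Mathlib notions only

Let `G` be a `d`-regular graph on `n` vertices, `d` positive, such that `‖A f‖ ≤ lam ‖f‖` for
every `f` orthogonal to the constants, where `A` is the adjacency matrix, with `200 lam ≤ d`.
Then the number of near-perfect matchings of `G` is at most `n^5` times the number of perfect
matchings.

This is the theorem of the hand-in `SpectralExpanderPolyRatio`, restated so that the statement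
uses no definition of this project.  Inside the statement

* `IsMatching M` says that the finite set `M` of unordered pairs consists of edges of `G`, no
  two of which share a vertex;
* `Covered M w` says that the vertex `w` lies on some member of `M`;
* a perfect matching is a matching covering every vertex, and a near-perfect matching is a
  matching leaving exactly two vertices uncovered.
-/

namespace Vale.Agent.Results.P308.SpectralExpanderPlain

open Finset

theorem result {V : Type*} [Fintype V] [DecidableEq V] (G : SimpleGraph V) [DecidableRel G.Adj]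
    (d : ℕ) (lam : ℝ) (hreg : G.IsRegularOfDegree d) (hd : 0 < d) (hlam0 : 0 ≤ lam)
    (hlam : 200 * lam ≤ d)
    (hspec : ∀ f : V → ℝ, ∑ x, f x = 0 →
      ∑ x, ((G.adjMatrix ℝ).mulVec f x) ^ 2 ≤ lam ^ 2 * ∑ x, f x ^ 2) :
    let IsMatching : Finset (Sym2 V) → Prop := fun M =>
      (∀ e ∈ M, e ∈ G.edgeSet) ∧ ∀ e ∈ M, ∀ e' ∈ M, ∀ w : V, w ∈ e → w ∈ e' → e = e'
    let Covered : Finset (Sym2 V) → V → Prop := fun M w => ∃ e ∈ M, w ∈ e
    Set.ncard {M : Finset (Sym2 V) |
        IsMatching M ∧ ∃ u v : V, u ≠ v ∧ ∀ w : V, ¬ Covered M w ↔ (w = u ∨ w = v)}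
      ≤ Fintype.card V ^ 5 *
        Set.ncard {M : Finset (Sym2 V) | IsMatching M ∧ ∀ w : V, Covered M w} :=
  Vale.Agent.Results.P308.SpectralExpanderPolyRatio.result G d lam hreg hd hlam0 hlam hspec

end Vale.Agent.Results.P308.SpectralExpanderPlain
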